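import Vale.Agent.P073.PR.Sphere
import Vale.Agent.P073.St

/-!
# P073, block GB, part GB3 (the three-dimensional part of the good box): statements

`k` is a conical homeomorphism, uniformly close to the identity on the box `‖x‖ ≤ N + 1`, whose
restriction to the unit lattice edges crosses the level sets of `w N` once, for an uncountable set
of levels. Then `k` can be changed in the layer `N < ‖x‖ < N + 1` so that it maps one level surface
`{w N = t}` onto itself, moving its points by at most `3`.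

All spheres and discs are conical (`ConSphere`, `ConBall`), `‖x‖` is the sup norm.
-/

open Set Metric Topology Filter

namespace P073.GB3

open Vale.Agent.P073.St (V)

/-! ## Inputs from other blocks -/

/-- **ALX**, ambient form of Alexander's theorem. -/
def SpecAlex : Prop := ∀ S : Set V, ConSphere 2 S →
  ∃ Φ : ConHomeo (univ : Set V) (univ : Set V), Φ.toFun '' S = sphere 0 1

/-- **C2**, Jordan-Schoenflies on the standard sphere. -/
def SpecJS : Prop := JordanSch 2 (sphere (0 : V) 1)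

/-- **PUSH REL Z**: `b` is an ambient ball with frontier `d ∪ e`; the set `Z`, closed and conical
in `Ω`, meets `b` only in the common boundary `κ` of the two discs. Then `d` can be pushed onto
`e`, without moving `Z` and the points outside a given neighbourhood `W` of `b`. -/
def SpecPush : Prop := ∀ (Ω W b d e κ Z : Set V), IsOpen Ω → IsOpen W → W ⊆ Ω → b ⊆ W →
  (∃ Φ : ConHomeo (univ : Set V) (univ : Set V), Φ.toFun '' b = closedBall 0 1 ∧
    Φ.toFun '' (d ∪ e) = sphere 0 1) →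
  ConBall 2 d κ → ConBall 2 e κ → d ∩ e = κ →
  (∀ x ∈ Ω, x ∈ closure Z → x ∈ Z) → (∀ x ∈ Ω, LocConeAt Z x) → Z ∩ b ⊆ κ →
  ∃ Ψ : ConHomeo Ω Ω, (∀ x ∈ Ω, x ∉ W → Ψ.toFun x = x) ∧ (∀ x ∈ Z, x ∈ Ω → Ψ.toFun x = x) ∧
    Ψ.toFun '' d = e

/-- **TR** (dimension two): for all but countably many levels `t`, the level set `{v = t}` in a
square `Q` is a finite disjoint union of conical circles in the open square and of conical arcs
which meet the boundary of the square exactly in their end points. -/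
def SpecTR : Prop := ∀ (a b : Fin 2 → ℝ), (∀ i, a i < b i) → ∀ v : (Fin 2 → ℝ) → ℝ,
  ContinuousOn v (Icc a b) → ConicalOn v (Icc a b) → ∃ N : Set ℝ, N.Countable ∧
  ∀ t ∉ N, ∃ (L M : Type) (κ : L → Set (Fin 2 → ℝ)) (α β : M → Set (Fin 2 → ℝ)),
    Finite L ∧ Finite M ∧ {x ∈ Icc a b | v x = t} = (⋃ l, κ l) ∪ ⋃ m, α m ∧
    (∀ l, ConSphere 1 (κ l) ∧ κ l ⊆ interior (Icc a b)) ∧
    (∀ l l', l ≠ l' → Disjoint (κ l) (κ l')) ∧
    (∀ m, ConBall 1 (α m) (β m) ∧ α m ∩ frontier (Icc a b) = β m) ∧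
    (∀ m m', m ≠ m' → Disjoint (α m) (α m')) ∧ ∀ l m, Disjoint (κ l) (α m)

/-! ## Removal of circles, for general cell complexes -/

/-- A cell complex in the open set `U ⊆ Ω`: faces `τ i` with boundary `bd i` in the one-skeleton
`X1`, three-cells `c j` with connected complement. -/
structure Cx (Ω U X1 X2 : Set V) {ι J : Type} (τ bd : ι → Set V) (c : J → Set V) : Prop where
  openΩ : IsOpen Ω
  openU : IsOpen U
  subU : U ⊆ Ω
  sub : X2 ⊆ Ω
  sub1 : X1 ⊆ X2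
  closed1 : ∀ x ∈ Ω, x ∈ closure X1 → x ∈ X1
  closed2 : ∀ x ∈ Ω, x ∈ closure X2 → x ∈ X2
  cone2 : ∀ x ∈ Ω, LocConeAt X2 x
  disc : ∀ i, ConBall 2 (τ i) (bd i)
  bd1 : ∀ i, bd i ⊆ X1
  face : ∀ i, τ i ⊆ X2
  faceU : ∀ i, τ i \ bd i ⊆ U
  cover : X2 ⊆ X1 ∪ ⋃ i, τ i
  off1 : ∀ i, Disjoint (τ i \ bd i) X1
  /-- the open faces are open in `X2` -/
  openFace : ∀ i, ∀ x ∈ τ i \ bd i, x ∉ closure (X2 \ τ i)
  cpt : ∀ j, IsCompact (c j)
  csub : ∀ j, interior (c j) ⊆ U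
  ccompl : ∀ j, IsPreconnected (c j)ᶜ
  cint : ∀ j, Disjoint (interior (c j)) X2
  /-- the complement of the two-skeleton is covered by the open three-cells -/
  cells : ∀ x ∈ U, x ∉ X2 → ∃ j, x ∈ interior (c j)
  cells' : ∀ j, ∀ x ∈ U, x ∉ X2 → x ∈ c j → x ∈ interior (c j)
  fc : ∀ i j, ((τ i \ bd i) ∩ c j).Nonempty → τ i ⊆ c j

/-- The level `t` of the function `v` is good: `{v = t}` is a conical sphere in `Ω` and its
intersection with `X2` is the union of a connected set `Γ`, which contains all points of `X1`, and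
of finitely many disjoint conical circles in open faces. -/
structure GoodLevel (Ω U X1 X2 : Set V) {ι : Type} (τ bd : ι → Set V) (v : V → ℝ) (t : ℝ)
    (Γ : Set V) {L : Type} (κ : L → Set V) : Prop where
  sphere : ConSphere 2 {x | x ∈ Ω ∧ v x = t}
  subU : ∀ x ∈ Ω, v x = t → x ∈ U
  fin : Finite L
  eq : {x | x ∈ X2 ∧ v x = t} = Γ ∪ ⋃ l, κ l
  ne : (Γ ∩ X1).Nonempty
  conn : IsPreconnected Γ
  closed : IsClosed Γ
  pts : ∀ x ∈ X1, v x = t → x ∈ Γ
  circle : ∀ l, ConSphere 1 (κ l)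
  inFace : ∀ l, ∃ i, κ l ⊆ τ i \ bd i
  disj : ∀ l l', l ≠ l' → Disjoint (κ l) (κ l')
  disjΓ : ∀ l, Disjoint Γ (κ l)

/-- **(CIRC)** removal of the circles. -/
def SpecCirc : Prop := SpecAlex → SpecJS → SpecPush →
  ∀ (Ω U X1 X2 : Set V) (ι J : Type) (τ bd : ι → Set V) (c : J → Set V), Cx Ω U X1 X2 τ bd c →
  ∀ v : V → ℝ, ContinuousOn v Ω → ∀ T : Set ℝ, ¬ T.Countable →
  ∀ (Γ : ℝ → Set V) (L : ℝ → Type) (κ : ∀ t, L t → Set V),
    (∀ t ∈ T, GoodLevel Ω U X1 X2 τ bd v t (Γ t) (κ t)) →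
  ∃ t ∈ T, ∃ (Ψ : ConHomeo Ω Ω) (K : Set V), IsCompact K ∧ K ⊆ U \ X1 ∧
    (∀ x ∈ Ω, x ∉ K → Ψ.toFun x = x) ∧ (∀ x ∈ Γ t, Ψ.toFun x = x) ∧
    {x | x ∈ X2 ∧ v (Ψ.toFun x) = t} = Γ t

/-! ## The layer -/

/-- `w N x = ∑ max (|x i| - N) 0`: the level sets `{w N = t}`, `0 < t < 1`, are convex surfaces in
the layer `N < ‖x‖ < N + 1`; they cut each unit cube of the layer into two convex polytopes. -/
noncomputable def w (N : ℕ) (x : V) : ℝ := ∑ i, max (|x i| - N) 0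

/-- A crossing edge: `i` is its direction, `s` the side, `n j` (`j ≠ i`) the fixed coordinates. -/
structure CEdge (N : ℕ) where
  /-- direction -/
  i : Fin 3
  /-- side, `1` or `-1` -/
  s : ℤ
  /-- position -/
  n : Fin 3 → ℤ
  hs : s = 1 ∨ s = -1
  hn : ∀ j, |n j| ≤ N

/-- the point of the crossing edge at height `u` -/
noncomputable def CEdge.pt {N : ℕ} (e : CEdge N) (u : ℝ) : V :=
  fun j => if j = e.i then e.s * (N + u) else e.n j

/-- the piecewise linear homeomorphism of `[0,1]` with `0 ↦ 0`, `t ↦ t'`, `1 ↦ 1` -/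
noncomputable def slide (t t' u : ℝ) : ℝ :=
  if u ≤ t then t' / t * u else 1 - (1 - t') / (1 - t) * (1 - u)

/-- hypotheses of (GB3) -/
structure Input (N : ℕ) (Ω Λ : Set V) (k : ConHomeo Ω Λ) (T : Set ℝ) : Prop where
  N1 : 1 ≤ N
  openΩ : IsOpen Ω
  box : closedBall (0 : V) (N + 1) ⊆ Ω
  /-- uniform closeness on the box -/
  close : ∀ x ∈ closedBall (0 : V) (N + 1), ‖k.toFun x - x‖ ≤ 1 / 12
  unc : ¬ T.Countable
  sub : T ⊆ Ioo (1 / 4) (3 / 4)
  /-- each crossing edge is crossed once, for all levels in `T` -/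
  once : ∀ t ∈ T, ∀ e : CEdge N, ∀ u ∈ Icc (0:ℝ) 1, ∀ u' ∈ Icc (0:ℝ) 1,
    w N (k.toFun (e.pt u)) = t → w N (k.toFun (e.pt u')) = t → u = u'

/-- **(GB3)** -/
def SpecGB3 : Prop := ∀ (N : ℕ) (Ω Λ : Set V) (k : ConHomeo Ω Λ) (T : Set ℝ), Input N Ω Λ k T →
  ∃ t ∈ T, ∃ k2 : ConHomeo Ω Λ,
    (∀ x ∈ Ω, ‖x‖ ≤ N ∨ N + 1 ≤ ‖x‖ → k2.toFun x = k.toFun x) ∧
    k2.toFun '' {x | w N x = t} = {x | w N x = t} ∧
    (∀ x, w N x = t → ‖k2.toFun x - x‖ ≤ 3) ∧
    ∀ e : CEdge N, ∃ t' ∈ Ioo (0:ℝ) 1, |t' - t| ≤ 1 / 4 ∧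
      ∀ u ∈ Icc (0:ℝ) 1, k2.toFun (e.pt u) = k.toFun (e.pt (slide t t' u))

end P073.GB3
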