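import Vale.Agent.P073.GB73.Spec
import Vale.Agent.P073.PR.Sphere

/-!
# P073, block GB: the gauge of a body

For a good body `A` the function `bg A y = gauge A.Q (y - A.c)` is continuous and conical, its
sublevel sets are the bodies `A.at t`.
-/

open Set Metric Topology Filter

namespace P073.GB3

open P073 P073.GB73
open Vale.Agent.P073.St (V)

section gauge

variable {E : Type*} [NormedAddCommGroup E] [NormedSpace ℝ E]

/-- the gauge is conical at the points of the frontier -/
theorem conicalWithinAt_gauge_frontier {Q : Set E} (hc : Convex ℝ Q)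
    (h0 : Q ∈ 𝓝 0) (hl : LocCone Q) {x : E} (hx : gauge Q x = 1) :
    ConicalWithinAt (gauge Q) univ x := by
  have hcont : Continuous (gauge Q) := continuous_gauge hc h0
  obtain ⟨r, hr, H⟩ := hl.frontier x
  have hxF : x ∈ frontier Q := (gauge_eq_one_iff_mem_frontier hc h0).1 hx
  -- the vector `u`
  have hU : ContinuousAt (fun v : E => (gauge Q (x + v))⁻¹ • (v - (gauge Q (x + v) - 1) • x)) 0 := by
    have h1 : ContinuousAt (fun v : E => gauge Q (x + v)) 0 := by fun_prop
    refine ContinuousAt.smul (h1.inv₀ ?_) ?_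
    · simp only [add_zero]; rw [hx]; exact one_ne_zero
    · exact continuousAt_id.sub ((h1.sub continuousAt_const).smul continuousAt_const)
  have hU0 : (gauge Q (x + 0))⁻¹ • ((0:E) - (gauge Q (x + 0) - 1) • x) = 0 := by
    rw [add_zero, hx]; simp
  have h1 : ∀ᶠ v : E in 𝓝 0,
      ‖(gauge Q (x + v))⁻¹ • (v - (gauge Q (x + v) - 1) • x)‖ < r := by
    have := hU.norm
    refine this.eventually_lt continuousAt_const ?_
    rw [hU0, norm_zero]; exact hr
  have h2 : ∀ᶠ v : E in 𝓝 0, 0 < gauge Q (x + v) := by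
    have : ContinuousAt (fun v : E => gauge Q (x + v)) 0 := by fun_prop
    refine continuousAt_const.eventually_lt this ?_
    rw [add_zero, hx]; exact one_pos
  obtain ⟨ρ, hρ, hb⟩ := Metric.nhds_basis_closedBall.mem_iff.1 (h1.and h2)
  refine ⟨ρ, hρ, fun v hv _ t ht => ⟨mem_univ _, ?_⟩⟩
  have hv' : v ∈ closedBall (0:E) ρ := by rw [mem_closedBall_zero_iff]; exact hv
  obtain ⟨b1, b2⟩ := hb hv'
  set l := gauge Q (x + v) with hlam
  set u := l⁻¹ • (v - (l - 1) • x) with hu
  have e1 : x + v = l • (x + u) := by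
    rw [hu, smul_add, smul_smul, mul_inv_cancel₀ b2.ne', one_smul, sub_smul, one_smul]
    abel
  have hxu : x + u ∈ frontier Q := by
    rw [← gauge_eq_one_iff_mem_frontier hc h0]
    have : gauge Q (l • (x + u)) = l * gauge Q (x + u) := by
      rw [gauge_smul_of_nonneg b2.le, smul_eq_mul]
    rw [← e1] at this
    have h3 : l * gauge Q (x + u) = l * 1 := by rw [← this, mul_one]
    exact mul_left_cancel₀ b2.ne' h3
  have hmu : 0 < 1 - t + t * l := by
    rcases eq_or_lt_of_le ht.1 with h | h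
    · rw [← h]; norm_num
    · have := mul_pos h b2
      have := ht.2
      linarith
  rw [hx]
  rcases eq_or_lt_of_le ht.1 with h | h
  · rw [← h]; simp [hx]
  · have htau : t * l / (1 - t + t * l) ∈ Ioc (0:ℝ) 1 := by
      refine ⟨div_pos (mul_pos h b2) hmu, ?_⟩
      rw [div_le_one hmu]; linarith [ht.2]
    have h3 := (H u b1.le _ htau).2 hxu
    have e2 : x + t • v = (1 - t + t * l) • (x + (t * l / (1 - t + t * l)) • u) := by
      have : v = l • (x + u) - x := by rw [← e1]; abel
      rw [this, smul_add (1 - t + t * l), smul_smul, mul_div_cancel₀ _ hmu.ne']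
      module
    rw [e2, gauge_smul_of_nonneg hmu.le, (gauge_eq_one_iff_mem_frontier hc h0).2 h3]
    simp only [smul_eq_mul]
    ring

/-- the gauge of a polyhedral convex body is conical -/
theorem conicalOn_gauge {Q : Set E} (hQ : IsCompact Q) (hc : Convex ℝ Q) (h0 : Q ∈ 𝓝 0)
    (hl : LocCone Q) : ConicalOn (gauge Q) univ := by
  intro y _
  by_cases hy : y = 0
  · subst hy
    refine ⟨1, one_pos, fun v _ _ t ht => ⟨mem_univ _, ?_⟩⟩
    rw [zero_add, zero_add, gauge_zero, gauge_smul_of_nonneg ht.1]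
    simp
  · have hpos : 0 < gauge Q y :=
      (gauge_pos (absorbent_nhds_zero h0) ((NormedSpace.isVonNBounded_iff ℝ).2 hQ.isBounded)).2 hy
    have h1 : gauge Q ((gauge Q y)⁻¹ • y) = 1 := by
      rw [gauge_smul_of_nonneg (inv_nonneg.2 hpos.le), smul_eq_mul, inv_mul_cancel₀ hpos.ne']
    obtain ⟨r, hr, H⟩ := conicalWithinAt_gauge_frontier hc h0 hl h1
    refine ⟨gauge Q y * r, mul_pos hpos hr, fun v hv _ t ht => ⟨mem_univ _, ?_⟩⟩
    have h2 : ‖(gauge Q y)⁻¹ • v‖ ≤ r := by
      rw [norm_smul, norm_inv, Real.norm_of_nonneg hpos.le, inv_mul_le_iff₀ hpos]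
      exact hv
    have h3 := (H _ h2 (mem_univ _) t ht).2
    have e1 : ∀ z : E, gauge Q z = gauge Q y * gauge Q ((gauge Q y)⁻¹ • z) := by
      intro z
      rw [gauge_smul_of_nonneg (inv_nonneg.2 hpos.le), smul_eq_mul, ← mul_assoc,
        mul_inv_cancel₀ hpos.ne', one_mul]
    have e2 : (gauge Q y)⁻¹ • (y + t • v) = (gauge Q y)⁻¹ • y + t • (gauge Q y)⁻¹ • v := by
      rw [smul_add, smul_comm]
    have e3 : (gauge Q y)⁻¹ • (y + v) = (gauge Q y)⁻¹ • y + (gauge Q y)⁻¹ • v := by
      rw [smul_add]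
    rw [e1 (y + t • v), e1 (y + v), e2, h3, e3, h1]
    simp only [smul_eq_mul]
    ring

end gauge

/-! ## Bodies -/

/-- the gauge of the body `A` -/
noncomputable def bg (A : Body) (y : V) : ℝ := gauge A.Q (y - A.c)

variable {A : Body} {Λ : Set V}

theorem continuous_bg (hA : A.Good Λ) : Continuous (bg A) :=
  (continuous_gauge hA.convex hA.nhds).comp (continuous_id.sub continuous_const)

theorem conicalOn_bg (hA : A.Good Λ) : ConicalOn (bg A) univ := by
  intro y _
  obtain ⟨r, hr, H⟩ := conicalOn_gauge hA.compact hA.convex hA.nhds hA.cone (y - A.c) (mem_univ _)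
  refine ⟨r, hr, fun v hv _ t ht => ⟨mem_univ _, ?_⟩⟩
  have h3 := (H v hv (mem_univ _) t ht).2
  show gauge A.Q (y + t • v - A.c) = gauge A.Q (y - A.c) +
    t • (gauge A.Q (y + v - A.c) - gauge A.Q (y - A.c))
  rw [add_sub_right_comm, h3, add_sub_right_comm]

theorem mem_at_iff {t : ℝ} (ht : 0 < t) {y : V} : y ∈ A.at t ↔ t⁻¹ • (y - A.c) ∈ A.Q := by
  constructor
  · rintro ⟨v, hv, rfl⟩
    simp only
    rw [add_sub_cancel_left, smul_smul, inv_mul_cancel₀ ht.ne', one_smul]
    exact hv
  · intro h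
    refine ⟨_, h, ?_⟩
    simp only
    rw [smul_smul, mul_inv_cancel₀ ht.ne', one_smul, add_sub_cancel]

theorem gauge_smul_inv {t : ℝ} (ht : 0 < t) {Q : Set V} (z : V) :
    gauge Q (t⁻¹ • z) = t⁻¹ * gauge Q z := by
  rw [gauge_smul_of_nonneg (inv_nonneg.2 ht.le), smul_eq_mul]

/-- the homothety of a body, as a homeomorphism -/
noncomputable def homothety (A : Body) {t : ℝ} (ht : 0 < t) : V ≃ₜ V :=
  (Homeomorph.smulOfNeZero t ht.ne').trans (Homeomorph.addLeft A.c)

theorem homothety_apply {t : ℝ} (ht : 0 < t) (v : V) : homothety A ht v = A.c + t • v := rfl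

theorem at_eq_image {t : ℝ} (ht : 0 < t) : A.at t = homothety A ht '' A.Q := rfl

theorem bg_homothety {t : ℝ} (ht : 0 < t) (v : V) :
    bg A (homothety A ht v) = t * gauge A.Q v := by
  rw [homothety_apply, bg, add_sub_cancel_left, gauge_smul_of_nonneg ht.le, smul_eq_mul]

theorem mem_image_homothety {t : ℝ} (ht : 0 < t) {S : Set V} {y : V} :
    y ∈ homothety A ht '' S ↔ (homothety A ht).symm y ∈ S := by
  constructor
  · rintro ⟨v, hv, rfl⟩; rwa [Homeomorph.symm_apply_apply]
  · intro h; exact ⟨_, h, Homeomorph.apply_symm_apply _ _⟩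

theorem bg_eq {t : ℝ} (ht : 0 < t) (y : V) : bg A y = t * gauge A.Q ((homothety A ht).symm y) := by
  conv_lhs => rw [← (homothety A ht).apply_symm_apply y]
  exact bg_homothety ht _

theorem le_iff_mem_at (hA : A.Good Λ) {t : ℝ} (ht : 0 < t) {y : V} :
    bg A y ≤ t ↔ y ∈ A.at t := by
  have h1 := gauge_le_one_iff_mem_closure (x := (homothety A ht).symm y) hA.convex hA.nhds
  rw [hA.compact.isClosed.closure_eq] at h1
  rw [bg_eq ht, at_eq_image ht, mem_image_homothety ht, ← h1]
  exact mul_le_iff_le_one_right ht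

theorem lt_iff_mem_interior_at (hA : A.Good Λ) {t : ℝ} (ht : 0 < t) {y : V} :
    bg A y < t ↔ y ∈ interior (A.at t) := by
  rw [bg_eq ht, at_eq_image ht, ← Homeomorph.image_interior, mem_image_homothety ht,
    ← gauge_lt_one_iff_mem_interior hA.convex hA.nhds]
  exact mul_lt_iff_lt_one_right ht

theorem eq_iff_mem_frontier_at (hA : A.Good Λ) {t : ℝ} (ht : 0 < t) {y : V} :
    bg A y = t ↔ y ∈ frontier (A.at t) := by
  rw [bg_eq ht, at_eq_image ht, ← Homeomorph.image_frontier, mem_image_homothety ht,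
    ← gauge_eq_one_iff_mem_frontier hA.convex hA.nhds]
  constructor
  · intro h
    have : t * gauge A.Q ((homothety A ht).symm y) = t * 1 := by rw [h, mul_one]
    exact mul_left_cancel₀ ht.ne' this
  · intro h; rw [h, mul_one]

/-! ## Transfer of the Jordan-Schoenflies property -/

theorem jordanSch_image {E F : Type*} [NormedAddCommGroup E] [NormedSpace ℝ E]
    [NormedAddCommGroup F] [NormedSpace ℝ F] {n : ℕ} {S : Set E} {S' : Set F}
    (h : ConHomeo S S') (H : JordanSch n S) : JordanSch n S' := by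
  intro γ hγ hs
  have hγc : ConicalSet γ := by
    obtain ⟨φ⟩ := hs
    exact φ.conicalSet_left
  have h1 : h.symm.toFun '' γ ⊆ S := by
    rintro _ ⟨y, hy, rfl⟩; exact h.mapsTo_inv (hγ hy)
  have h2 : ConSphere (n - 1) (h.symm.toFun '' γ) := by
    obtain ⟨φ⟩ := hs
    exact ⟨(h.symm.restr hγc hγ).symm.trans φ⟩
  obtain ⟨U, W, hd, hu, hU, hW, hbU, hbW⟩ := H _ h1 h2
  have hUS : U ⊆ S := fun x hx => ((hu ▸ Or.inl hx : x ∈ S \ h.symm.toFun '' γ)).1
  have hWS : W ⊆ S := fun x hx => ((hu ▸ Or.inr hx : x ∈ S \ h.symm.toFun '' γ)).1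
  have e1 : h.toFun '' (h.symm.toFun '' γ) = γ := by
    rw [image_image]
    have : ∀ y ∈ γ, h.toFun (h.symm.toFun y) = y := fun y hy => h.right_inv (hγ hy)
    rw [image_congr this, image_id']
  refine ⟨h.toFun '' U, h.toFun '' W, ?_, ?_, hU.image _, hW.image _, ?_, ?_⟩
  · rw [Set.disjoint_left]
    rintro _ ⟨x, hx, rfl⟩ ⟨x', hx', he⟩
    have := h.injOn (hWS hx') (hUS hx) he
    subst this
    exact Set.disjoint_left.1 hd hx hx'
  · rw [← image_union, hu]
    rw [h.injOn.image_sdiff_subset h1, h.image_eq, e1]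
  · have := hbU.image h (union_subset hUS h1)
    rwa [image_union, e1] at this
  · have := hbW.image h (union_subset hWS h1)
    rwa [image_union, e1] at this

/-- the frontier of a conical ball has the Jordan-Schoenflies property -/
theorem conBall_jordanSch {E : Type*} [NormedAddCommGroup E] [NormedSpace ℝ E] {C B : Set E}
    (h : ConBall 3 C B) (H : JordanSch 2 (sphere (0 : V) 1)) : JordanSch 2 B := by
  obtain ⟨φ⟩ := h.conSphere
  exact jordanSch_image φ.symm H

end P073.GB3
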