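import Vale.Agent.P073.GB3.Spec
import Vale.Agent.P073.PR.Hemi

/-!
# P073, block GB2 (CIRC): preliminaries

Two discs along their common boundary form a sphere; circles in the interior of a disc bound
discs; images of the Jordan-Schoenflies property; images of polyhedral sets are polyhedral.
-/

open Set Metric Topology Filter

namespace P073

variable {E F : Type*} [NormedAddCommGroup E] [NormedSpace ℝ E]
  [NormedAddCommGroup F] [NormedSpace ℝ F]

/-! ### Images of locally conical sets -/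

/-- The image of a compact locally conical set under a conical homeomorphism is locally
conical. -/
theorem ConHomeo.locCone_right {X : Set E} {Y : Set F} [FiniteDimensional ℝ E]
    (h : ConHomeo X Y) (hX : IsCompact X) (hXc : LocCone X) : LocCone Y := by
  have hY : IsCompact Y := h.isCompact_right hX
  intro y
  by_cases hyY : y ∈ Y
  swap
  · exact locConeAt_of_compl_mem_nhds (hY.isClosed.isOpen_compl.mem_nhds hyY)
  set x : E := h.invFun y with hx
  have hxX : x ∈ X := h.mapsTo_inv hyY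
  have hxy : h.toFun x = y := h.right_inv hyY
  obtain ⟨r0, hr0, H0⟩ := hXc x
  obtain ⟨r1, hr1, H1⟩ := h.conical x hxX
  set ρ := min r0 r1 with hρ
  have hρ0 : 0 < ρ := lt_min hr0 hr1
  -- the radius in the target
  set K : Set E := {v | ‖v‖ = ρ ∧ x + v ∈ X} with hK
  have hKc : IsCompact K := by
    have h1 : K = sphere (0 : E) ρ ∩ (fun v => x + v) ⁻¹' X := by
      ext v; simp [hK]
    rw [h1]
    exact (isCompact_sphere _ _).inter_right (hX.isClosed.preimage (by fun_prop))
  have hcont : ContinuousOn (fun v => ‖h.toFun (x + v) - y‖) K := by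
    apply ContinuousOn.norm
    apply ContinuousOn.sub _ continuousOn_const
    exact h.cont.comp (by fun_prop) (fun v hv => hv.2)
  obtain ⟨m, hm0, hm⟩ : ∃ m > 0, ∀ v ∈ K, m ≤ ‖h.toFun (x + v) - y‖ := by
    rcases K.eq_empty_or_nonempty with hKe | hKn
    · exact ⟨1, one_pos, fun v hv => by rw [hKe] at hv; exact hv.elim⟩
    · obtain ⟨v0, hv0, hmin⟩ := hKc.exists_isMinOn hKn hcont
      refine ⟨‖h.toFun (x + v0) - y‖, ?_, fun v hv => hmin hv⟩
      rw [gt_iff_lt, norm_pos_iff, sub_ne_zero]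
      intro he
      have h2 : x + v0 = x := h.injOn hv0.2 hxX (by rw [he, hxy])
      have h3 : v0 = 0 := by simpa using h2
      have h4 := hv0.1
      rw [h3, norm_zero] at h4
      exact hρ0.ne h4
  -- continuity of the inverse
  obtain ⟨r', hr', Hr'⟩ : ∃ r' > 0, ∀ u : F, ‖u‖ ≤ r' → y + u ∈ Y →
      ‖h.invFun (y + u) - x‖ < ρ := by
    have h1 : ∀ᶠ z in 𝓝[Y] y, ‖h.invFun z - x‖ < ρ := by
      have h2 : Tendsto (fun z => ‖h.invFun z - x‖) (𝓝[Y] y) (𝓝 ‖h.invFun y - x‖) :=
        ((h.cont_inv y hyY).sub continuousWithinAt_const).norm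
      rw [← hx, sub_self, norm_zero] at h2
      exact h2.eventually (gt_mem_nhds hρ0)
    exact exists_radius_of_nhdsWithin h1
  obtain ⟨r2, hr2, H2⟩ := (h.conicalSet_right y hyY)
  refine ⟨min (min r' r2) m, lt_min (lt_min hr' hr2) hm0, fun u hu t ht => ⟨fun htu => ?_,
    fun hyu => ?_⟩⟩
  · -- enlarging
    have hur' : ‖u‖ ≤ r' := hu.trans ((min_le_left _ _).trans (min_le_left _ _))
    have hum : ‖u‖ ≤ m := hu.trans (min_le_right _ _)
    by_cases hu0 : u = 0
    · rw [hu0, smul_zero] at htu; rw [hu0]; exact htu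
    have htu' : ‖t • u‖ ≤ r' := norm_smul_le_of_mem_Icc ⟨ht.1.le, ht.2⟩ hur'
    have hv' := Hr' _ htu' htu
    set v' : E := h.invFun (y + t • u) - x with hv'def
    have hxv' : x + v' = h.invFun (y + t • u) := by rw [hv'def]; abel
    have hxv'X : x + v' ∈ X := by rw [hxv']; exact h.mapsTo_inv htu
    have hhxv' : h.toFun (x + v') = y + t • u := by rw [hxv']; exact h.right_inv htu
    have hv'0 : v' ≠ 0 := by
      intro h0
      rw [h0, add_zero, hxy] at hhxv'
      have : t • u = 0 := by simpa using hhxv'.symm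
      rcases smul_eq_zero.1 this with h | h
      · exact ht.1.ne' h
      · exact hu0 h
    have hv'n : 0 < ‖v'‖ := norm_pos_iff.2 hv'0
    set s : ℝ := ‖v'‖ / ρ with hs
    have hs0 : 0 < s := div_pos hv'n hρ0
    have hs1 : s ≤ 1 := (div_le_one hρ0).2 hv'.le
    set v : E := s⁻¹ • v' with hv
    have hsv : s • v = v' := by rw [hv, smul_smul, mul_inv_cancel₀ hs0.ne', one_smul]
    have hvn : ‖v‖ = ρ := by
      rw [hv, norm_smul, norm_inv, Real.norm_of_nonneg hs0.le, hs]
      field_simp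
    have hxvX : x + v ∈ X := by
      rw [← H0 v (hvn.le.trans (min_le_left _ _)) s ⟨hs0, hs1⟩, hsv]
      exact hxv'X
    have h5 := (H1 v (hvn.le.trans (min_le_right _ _)) hxvX s ⟨hs0.le, hs1⟩).2
    rw [hsv, hhxv', hxy] at h5
    have h6 : t • u = s • (h.toFun (x + v) - y) := by
      have := congrArg (fun z => z - y) h5
      simpa using this
    set U : F := h.toFun (x + v) - y with hU
    have hUm : m ≤ ‖U‖ := hm v ⟨hvn, hxvX⟩
    have hU0 : 0 < ‖U‖ := hm0.trans_le hUm
    -- `u = (s / t) • U`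
    have h7 : u = (s / t) • U := by
      have : t⁻¹ • (t • u) = t⁻¹ • (s • U) := by rw [h6]
      rw [smul_smul, inv_mul_cancel₀ ht.1.ne', one_smul, smul_smul] at this
      rw [this]; congr 1; field_simp
    have h8 : s / t ≤ 1 := by
      have h9 : ‖u‖ = (s / t) * ‖U‖ := by
        rw [h7, norm_smul, Real.norm_of_nonneg (div_pos hs0 ht.1).le]
      by_contra hcon
      push Not at hcon
      have : ‖U‖ < ‖u‖ := by rw [h9]; nlinarith
      linarith
    have h10 := (H1 v (hvn.le.trans (min_le_right _ _)) hxvX (s / t)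
      ⟨(div_pos hs0 ht.1).le, h8⟩)
    rw [hxy, ← hU, ← h7] at h10
    rw [← h10.2]
    exact h.mapsTo h10.1
  · exact H2 u (hu.trans ((min_le_left _ _).trans (min_le_right _ _))) hyu t ⟨ht.1.le, ht.2⟩

theorem ConBall.locCone {n : ℕ} {C B : Set E} (h : ConBall n C B) : LocCone C := by
  obtain ⟨_, φ, _⟩ := h
  exact φ.symm.locCone_right (isCompact_closedBall _ _) (locCone_closedBall_pi n 1)

theorem locCone_sphere_pi (n : ℕ) : LocCone (sphere (0 : Fin n → ℝ) 1) := by
  have h1 : sphere (0 : Fin n → ℝ) 1 = frontier (closedBall 0 1) := by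
    rw [frontier_closedBall _ one_ne_zero]
  rw [h1]
  exact (locCone_closedBall_pi n 1).frontier

theorem ConSphere.locCone {n : ℕ} {B : Set E} (h : ConSphere n B) : LocCone B := by
  obtain ⟨φ⟩ := h
  exact φ.symm.locCone_right (isCompact_sphere _ _) (locCone_sphere_pi _)

/-! ### Basic facts about spheres and discs -/

theorem ConSphere.isCompact {n : ℕ} {B : Set E} (h : ConSphere n B) : IsCompact B := by
  obtain ⟨φ⟩ := h
  exact φ.symm.isCompact_right (isCompact_sphere _ _)

theorem ConSphere.nonempty {n : ℕ} {B : Set E} (h : ConSphere n B) : B.Nonempty := by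
  obtain ⟨φ⟩ := h
  rw [← φ.symm.image_eq]
  exact (NormedSpace.sphere_nonempty.2 zero_le_one).image _

theorem ConSphere.isPreconnected {n : ℕ} {B : Set E} (h : ConSphere (n + 1) B) :
    IsPreconnected B := by
  obtain ⟨φ⟩ := h
  rw [← φ.symm.image_eq]
  refine IsPreconnected.image ?_ _ φ.symm.cont
  refine (isConnected_sphere (E := Fin (n + 1 + 1) → ℝ) ?_ 0 zero_le_one).isPreconnected
  rw [rank_fun', Fintype.card_fin]
  exact_mod_cast (by omega : 1 < n + 1 + 1)

theorem ConSphere.image {n : ℕ} {B : Set E} (h : ConSphere n B) {X : Set E} {Y : Set F}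
    (Φ : ConHomeo X Y) (hB : B ⊆ X) : ConSphere n (Φ.toFun '' B) := by
  obtain ⟨φ⟩ := h
  exact ⟨(Φ.restr φ.conicalSet_left hB).symm.trans φ⟩

theorem JordanSch.image {n : ℕ} {S : Set E} (h : JordanSch n S) {Y : Set F}
    (Φ : ConHomeo S Y) : JordanSch n Y := by
  intro γ hγ hs
  have hγ' : Φ.invFun '' γ ⊆ S := by
    rintro _ ⟨y, hy, rfl⟩; exact Φ.mapsTo_inv (hγ hy)
  have hback : Φ.toFun '' (Φ.invFun '' γ) = γ := by
    rw [image_image]
    have : ∀ y ∈ γ, Φ.toFun (Φ.invFun y) = y := fun y hy => Φ.right_inv (hγ hy)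
    rw [image_congr this, image_id']
  obtain ⟨U, W, hUW, hS, hU, hW, hUb, hWb⟩ := h _ hγ' (hs.image Φ.symm hγ)
  have hUS : U ⊆ S := fun x hx => ((Set.ext_iff.1 hS x).1 (Or.inl hx)).1
  have hWS : W ⊆ S := fun x hx => ((Set.ext_iff.1 hS x).1 (Or.inr hx)).1
  refine ⟨Φ.toFun '' U, Φ.toFun '' W, ?_, ?_, hU.image _, hW.image _, ?_, ?_⟩
  · rw [Set.disjoint_left]
    rintro _ ⟨x, hx, rfl⟩ ⟨x', hx', he⟩
    have : x' = x := Φ.injOn (hWS hx') (hUS hx) he
    exact Set.disjoint_left.1 hUW hx (this ▸ hx')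
  · rw [← image_union, hS, Φ.injOn.image_sdiff_subset hγ', hback, Φ.image_eq]
  · have := hUb.image Φ (union_subset hUS hγ')
    rwa [image_union, hback] at this
  · have := hWb.image Φ (union_subset hWS hγ')
    rwa [image_union, hback] at this

/-- two conical discs meeting exactly in their common boundary form a conical sphere -/
theorem conSphere_of_discs {d e κ : Set E} (hd : ConBall 2 d κ) (he : ConBall 2 e κ)
    (hde : d ∩ e = κ) : ConSphere 2 (d ∪ e) := by
  have hκ1 : ConSphere 1 κ := hd.conSphere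
  have hq : ConSphere 1 equator3 := conBall_upperHemi.conSphere
  obtain ⟨α⟩ := hκ1
  obtain ⟨β⟩ := hq
  let φ : ConHomeo κ equator3 := α.trans β.symm
  obtain ⟨Φ₁, h1, h1'⟩ := hd.exists_extend conBall_upperHemi φ
  obtain ⟨Φ₂, h2, h2'⟩ := he.exists_extend conBall_lowerHemi φ
  have hcl1 : IsClosed upperHemi := isCompact_upperHemi.isClosed
  have hcl2 : IsClosed lowerHemi := conBall_lowerHemi.isClosed
  have hul : upperHemi ∩ lowerHemi = equator3 := by
    ext x
    simp only [upperHemi, lowerHemi, equator3, mem_inter_iff, mem_ofPred_eq]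
    constructor
    · rintro ⟨⟨h, h3⟩, _, h4⟩; exact ⟨h, le_antisymm h4 h3⟩
    · rintro ⟨h, h3⟩; exact ⟨⟨h, h3.ge⟩, h, h3.le⟩
  have hun : upperHemi ∪ lowerHemi = sphere (0 : Fin 3 → ℝ) 1 := by
    ext x
    simp only [upperHemi, lowerHemi, mem_union, mem_inter_iff, mem_ofPred_eq]
    constructor
    · rintro (h | h) <;> exact h.1
    · intro h
      rcases le_total 0 (x 2) with h3 | h3
      · exact Or.inl ⟨h, h3⟩
      · exact Or.inr ⟨h, h3⟩
  have hag : EqOn Φ₁.toFun Φ₂.toFun (d ∩ e) := by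
    intro x hx
    rw [hde] at hx
    rw [h1 hx, h2 hx]
  have himg : upperHemi ∩ lowerHemi ⊆ Φ₁.toFun '' (d ∩ e) := by
    rw [hul, hde, h1']
  let Φ := ConHomeo.glue Φ₁ Φ₂ hd.isClosed he.isClosed hcl1 hcl2 hag himg
  exact ⟨Φ.cast rfl hun⟩

/-- the image of a disc under a conical homeomorphism defined on the disc -/
theorem ConBall.image' {n : ℕ} {C B : Set E} (h : ConBall n C B) {Y : Set F}
    (Φ : ConHomeo C Y) : ConBall n Y (Φ.toFun '' B) := by
  have := h.image Φ (le_refl _)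
  rwa [Φ.image_eq] at this

theorem upper_inter_lower : upperHemi ∩ lowerHemi = equator3 := by
  ext x
  simp only [upperHemi, lowerHemi, equator3, mem_inter_iff, mem_ofPred_eq]
  constructor
  · rintro ⟨⟨h, h3⟩, _, h4⟩; exact ⟨h, le_antisymm h4 h3⟩
  · rintro ⟨h, h3⟩; exact ⟨⟨h, h3.ge⟩, h, h3.le⟩

theorem upper_union_lower : upperHemi ∪ lowerHemi = sphere (0 : Fin 3 → ℝ) 1 := by
  ext x
  simp only [upperHemi, lowerHemi, mem_union, mem_inter_iff, mem_ofPred_eq]
  constructor
  · rintro (h | h) <;> exact h.1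
  · intro h
    rcases le_total 0 (x 2) with h3 | h3
    · exact Or.inl ⟨h, h3⟩
    · exact Or.inr ⟨h, h3⟩

/-- A conical circle in the interior of a conical disc bounds a conical disc there, whose interior
is relatively open. -/
theorem exists_disc_of_circle (hJS : GB3.SpecJS) {τ bd κ : Set E} (h : ConBall 2 τ bd)
    (hκ : κ ⊆ τ \ bd) (hc : ConSphere 1 κ) :
    ∃ d, ConBall 2 d κ ∧ d ⊆ τ \ bd ∧ IsClosed (τ \ (d \ κ)) := by
  obtain ⟨α⟩ := h.conSphere
  obtain ⟨β⟩ := conBall_upperHemi.conSphere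
  obtain ⟨Φ, h1, h1'⟩ := h.exists_extend conBall_upperHemi (α.trans β.symm)
  have hκτ : κ ⊆ τ := fun x hx => (hκ hx).1
  set κ' := Φ.toFun '' κ with hκ'
  have hc' : ConSphere 1 κ' := hc.image Φ hκτ
  have hκ'u : κ' ⊆ upperHemi := by
    rintro _ ⟨x, hx, rfl⟩; exact Φ.mapsTo (hκτ hx)
  have hκ'e : ∀ y ∈ κ', y ∉ equator3 := by
    rintro _ ⟨x, hx, rfl⟩ he
    rw [← h1'] at he
    obtain ⟨x', hx', he⟩ := he
    have := Φ.injOn (h.1 hx') (hκτ hx) he
    exact (hκ hx).2 (this ▸ hx')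
  have hback : Φ.invFun '' κ' = κ := by
    rw [hκ', image_image]
    have : ∀ x ∈ κ, Φ.invFun (Φ.toFun x) = x := fun x hx => Φ.left_inv (hκτ hx)
    rw [image_congr this, image_id']
  have hus : upperHemi ⊆ sphere (0 : Fin 3 → ℝ) 1 := inter_subset_left
  -- the two sides
  obtain ⟨U, W, hUW, hS, hUb, hWb, hlow⟩ : ∃ U W : Set (Fin 3 → ℝ), Disjoint U W ∧
      U ∪ W = sphere 0 1 \ κ' ∧ ConBall 2 (U ∪ κ') κ' ∧ ConBall 2 (W ∪ κ') κ' ∧
      lowerHemi ⊆ W := by
    obtain ⟨U, W, hUW, hS, hU, hW, hUb, hWb⟩ := hJS κ' (hκ'u.trans hus) hc'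
    have hmiss : ∀ y ∈ lowerHemi, y ∉ κ' := by
      intro y hy hyκ
      refine hκ'e y hyκ ?_
      rw [← upper_inter_lower]
      exact ⟨hκ'u hyκ, hy⟩
    have hsub : lowerHemi ⊆ (U ∪ κ') ∪ (W ∪ κ') := by
      intro y hy
      have : y ∈ U ∪ W := by
        rw [hS]; exact ⟨upper_union_lower ▸ Or.inr hy, hmiss y hy⟩
      rcases this with h | h
      · exact Or.inl (Or.inl h)
      · exact Or.inr (Or.inl h)
    rcases IsPreconnected.subset_or conBall_lowerHemi.isPreconnected hUb.isClosed hWb.isClosed hsub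
      (by
        intro y hy h1 h2
        rcases h1 with h1 | h1
        · rcases h2 with h2 | h2
          · exact Set.disjoint_left.1 hUW h1 h2
          · exact hmiss y hy h2
        · exact hmiss y hy h1) with h | h
    · exact ⟨W, U, hUW.symm, by rw [union_comm]; exact hS, hWb, hUb,
        fun y hy => (h hy).resolve_right (hmiss y hy)⟩
    · exact ⟨U, W, hUW, hS, hUb, hWb, fun y hy => (h hy).resolve_right (hmiss y hy)⟩
  have hUS : U ⊆ sphere (0 : Fin 3 → ℝ) 1 \ κ' := fun y hy => hS ▸ (Or.inl hy : U y ∨ W y)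
  have hUu : U ⊆ upperHemi := by
    intro y hy
    have h2 : y ∈ upperHemi ∪ lowerHemi := by rw [upper_union_lower]; exact (hUS hy).1
    rcases h2 with h2 | h2
    · exact h2
    · exact absurd (hlow h2) (Set.disjoint_left.1 hUW hy)
  have hUe : ∀ y ∈ U, y ∉ equator3 := by
    intro y hy he
    have h2 : y ∈ lowerHemi := (upper_inter_lower ▸ he : y ∈ upperHemi ∩ lowerHemi).2
    exact Set.disjoint_left.1 hUW hy (hlow h2)
  have hUκ : U ∪ κ' ⊆ upperHemi := union_subset hUu hκ'u
  refine ⟨Φ.invFun '' (U ∪ κ'), ?_, ?_, ?_⟩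
  · have := hUb.image Φ.symm hUκ
    rw [Φ.symm_toFun, hback] at this
    exact this
  · rintro _ ⟨y, hy, rfl⟩
    refine ⟨Φ.mapsTo_inv (hUκ hy), fun hb => ?_⟩
    have h3 : y ∈ equator3 := by
      rw [← h1']
      exact ⟨_, hb, Φ.right_inv (hUκ hy)⟩
    rcases hy with hy | hy
    · exact hUe y hy h3
    · exact hκ'e y hy h3
  · have h4 : τ \ (Φ.invFun '' (U ∪ κ') \ κ) = Φ.invFun '' (upperHemi ∩ (W ∪ κ')) := by
      ext x
      constructor
      · rintro ⟨hx, hxn⟩
        refine ⟨Φ.toFun x, ⟨Φ.mapsTo hx, ?_⟩, Φ.left_inv hx⟩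
        by_cases hxκ : x ∈ κ
        · exact Or.inr ⟨x, hxκ, rfl⟩
        · left
          have h5 : Φ.toFun x ∉ κ' := by
            rintro ⟨x', hx', he⟩
            exact hxκ (Φ.injOn (hκτ hx') hx he ▸ hx')
          have h6 : Φ.toFun x ∈ U ∪ W := by rw [hS]; exact ⟨hus (Φ.mapsTo hx), h5⟩
          rcases h6 with h6 | h6
          · exact absurd ⟨⟨_, Or.inl h6, Φ.left_inv hx⟩, hxκ⟩ hxn
          · exact h6
      · rintro ⟨y, ⟨hyu, hy⟩, rfl⟩
        refine ⟨Φ.mapsTo_inv hyu, ?_⟩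
        rintro ⟨⟨y', hy', he⟩, hn⟩
        have h7 : y' = y := Φ.symm.injOn (hUκ hy') hyu he
        rw [h7] at hy'
        rcases hy with hy | hy
        · rcases hy' with h8 | h8
          · exact Set.disjoint_left.1 hUW h8 hy
          · exact hn (hback ▸ mem_image_of_mem _ h8)
        · exact hn (hback ▸ mem_image_of_mem _ hy)
    rw [h4]
    have h5 : IsCompact (upperHemi ∩ (W ∪ κ')) := isCompact_upperHemi.inter_right hWb.isClosed
    exact (h5.image_of_continuousOn (Φ.cont_inv.mono inter_subset_left)).isClosed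

end P073
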