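import Vale.Agent.P073.GB3.Circ1
import Vale.Agent.P073.SCH.Amb

/-!
# P073, block GB2 (CIRC): the swap in one cell

`C` is a three-cell of a complex in `Ω` with two-skeleton `X2`, `e` a disc in `C`, properly
embedded, whose boundary `κ` bounds a disc `d` in the boundary `S` of `C`. There is a conical
homeomorphism of `Ω` which maps `d` onto `e` and is the identity on `X2` minus the interior of `d`
and on a given protected set `Z`.
-/

open Set Metric Topology Filter

namespace P073.GB3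

open Vale.Agent.P073.St (V)

theorem isPreconnected_compl_closedBall : IsPreconnected (closedBall (0 : V) 1)ᶜ := by
  have hs : IsPreconnected (sphere (0 : V) 1) := by
    refine (isConnected_sphere (E := Fin 3 → ℝ) ?_ 0 zero_le_one).isPreconnected
    rw [rank_fun', Fintype.card_fin]
    exact_mod_cast (by omega : 1 < 3)
  have h1 : IsPreconnected (sphere (0 : V) 1 ×ˢ Ioi (1:ℝ)) := hs.prod isPreconnected_Ioi
  have h2 : (closedBall (0 : V) 1)ᶜ = (fun p : V × ℝ => p.2 • p.1) '' (sphere (0 : V) 1 ×ˢ Ioi 1) := by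
    ext x
    simp only [mem_compl_iff, mem_closedBall, dist_zero_right, not_le, mem_image, mem_prod,
      mem_sphere_iff_norm, sub_zero, mem_Ioi, Prod.exists]
    constructor
    · intro hx
      have h0 : 0 < ‖x‖ := zero_lt_one.trans hx
      refine ⟨‖x‖⁻¹ • x, ‖x‖, ⟨?_, hx⟩, ?_⟩
      · rw [norm_smul, norm_inv, norm_norm, inv_mul_cancel₀ h0.ne']
      · rw [smul_smul, mul_inv_cancel₀ h0.ne', one_smul]
    · rintro ⟨y, t, ⟨hy, ht⟩, rfl⟩
      rw [norm_smul, hy, mul_one, Real.norm_of_nonneg (zero_lt_one.trans ht).le]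
      exact ht
  rw [h2]
  exact h1.image _ (by fun_prop)

/-- the inside of a standard sphere -/
theorem subset_or_of_std {S : Set V} (Φ : ConHomeo (univ : Set V) (univ : Set V))
    (hΦ : Φ.toFun '' S = sphere 0 1) {A : Set V} (hA : IsPreconnected A) (hAS : Disjoint A S) :
    (∀ x ∈ A, Φ.toFun x ∈ ball (0 : V) 1) ∨ ∀ x ∈ A, Φ.toFun x ∈ (closedBall (0 : V) 1)ᶜ := by
  have h1 : IsPreconnected (Φ.toFun '' A) := hA.image _ Φ.continuous.continuousOn
  have h2 : Φ.toFun '' A ⊆ ball (0 : V) 1 ∪ (closedBall (0 : V) 1)ᶜ := by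
    rintro _ ⟨x, hx, rfl⟩
    have h3 : Φ.toFun x ∉ sphere (0 : V) 1 := by
      rw [← hΦ, Φ.apply_mem_image_iff]
      exact Set.disjoint_left.1 hAS hx
    rcases lt_trichotomy ‖Φ.toFun x‖ 1 with h | h | h
    · left; simpa using h
    · exact absurd (by simpa using h) h3
    · right; simpa using h
  rcases h1.subset_or_subset isOpen_ball isClosed_closedBall.isOpen_compl (by
    rw [Set.disjoint_left]; intro x hx hx'; exact hx' (ball_subset_closedBall hx)) h2 with h | h
  · exact Or.inl fun x hx => h (mem_image_of_mem _ hx)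
  · exact Or.inr fun x hx => h (mem_image_of_mem _ hx)

theorem isCompact_preimage_closedBall (Φ : ConHomeo (univ : Set V) (univ : Set V)) :
    IsCompact (Φ.toFun ⁻¹' closedBall 0 1) := by
  have : Φ.toFun ⁻¹' closedBall 0 1 = Φ.invFun '' closedBall 0 1 := by
    ext x
    constructor
    · intro hx; exact ⟨_, hx, Φ.inv_apply x⟩
    · rintro ⟨y, hy, rfl⟩
      show Φ.toFun (Φ.invFun y) ∈ closedBall (0 : V) 1
      rwa [Φ.apply_inv]
  rw [this]
  exact (isCompact_closedBall _ _).image Φ.continuous_inv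

/-- an unbounded connected set missing a standard sphere is outside -/
theorem outside_of_unbounded {S : Set V} (Φ : ConHomeo (univ : Set V) (univ : Set V))
    (hΦ : Φ.toFun '' S = sphere 0 1) {A : Set V} (hA : IsPreconnected A) (hAS : Disjoint A S)
    (hub : ¬ Bornology.IsBounded A) : ∀ x ∈ A, Φ.toFun x ∈ (closedBall (0 : V) 1)ᶜ := by
  rcases subset_or_of_std Φ hΦ hA hAS with h | h
  · exfalso
    exact hub ((isCompact_preimage_closedBall Φ).isBounded.subset fun x hx =>
      ball_subset_closedBall (h x hx))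
  · exact h

theorem not_isBounded_compl_closedBall : ¬ Bornology.IsBounded (closedBall (0 : V) 1)ᶜ := by
  intro h
  obtain ⟨R, hR⟩ := h.subset_closedBall (0 : V)
  have h1 : (fun _ => |R| + 2 : V) ∈ (closedBall (0 : V) 1)ᶜ := by
    simp only [mem_compl_iff, mem_closedBall, dist_zero_right, not_le]
    have := norm_le_pi_norm (fun _ => |R| + 2 : V) 0
    rw [Real.norm_of_nonneg (by positivity)] at this
    have := abs_nonneg R
    linarith
  have h2 := hR h1
  simp only [mem_closedBall, dist_zero_right] at h2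
  have := norm_le_pi_norm (fun _ => |R| + 2 : V) 0
  rw [Real.norm_of_nonneg (by positivity)] at this
  have := le_abs_self R
  linarith

/-- **the ball in a cell**: a conical sphere `d ∪ e` in a conical three-ball `C`, where `d` is in the
boundary `S` of `C` and `e \ κ` in the open ball `C \ S`, which is open in space, bounds an ambient
ball in `C`. -/
theorem exists_ambient_ball (hA : SpecAlex) {C S κ d e : Set V} (hC : ConBall 3 C S)
    (hCo : IsOpen (C \ S)) (hd : ConBall 2 d κ) (hdS : d ⊆ S) (he : ConBall 2 e κ)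
    (heC : e \ κ ⊆ C \ S) : ∃ b : Set V, b ⊆ C ∧ d ∪ e ⊆ b ∧ b ∩ S = d ∧ IsPreconnected (b \ (d ∪ e)) ∧
      IsCompact b ∧ IsOpen (b \ (d ∪ e)) ∧
      ∃ Φ : ConHomeo (univ : Set V) (univ : Set V), Φ.toFun '' b = closedBall 0 1 ∧
        Φ.toFun '' (d ∪ e) = sphere 0 1 := by
  have hκd : κ ⊆ d := hd.1
  have hκe : κ ⊆ e := he.1
  have hSC : S ⊆ C := hC.1
  have hde : d ∩ e = κ := by
    apply Subset.antisymm
    · rintro x ⟨hx, hx'⟩
      by_contra hn
      exact (heC ⟨hx', hn⟩).2 (hdS hx)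
    · exact subset_inter hκd hκe
  have heC' : e ⊆ C := by
    intro x hx
    by_cases h : x ∈ κ
    · exact hSC (hdS (hκd h))
    · exact (heC ⟨hx, h⟩).1
  have hS1C : d ∪ e ⊆ C := union_subset (hdS.trans hSC) heC'
  have hS1 : ConSphere 2 (d ∪ e) := conSphere_of_discs hd he hde
  obtain ⟨φ, hφ⟩ := hC.2
  set S1' : Set V := φ.toFun '' (d ∪ e) with hS1'
  obtain ⟨Φ', hΦ'⟩ := hA S1' (hS1.image φ hS1C)
  set b' : Set V := Φ'.toFun ⁻¹' closedBall 0 1 with hb'
  have hS1'b : S1' ⊆ closedBall (0 : V) 1 := by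
    rintro _ ⟨x, hx, rfl⟩; exact φ.mapsTo (hS1C hx)
  have hout : ∀ x ∈ (closedBall (0 : V) 1)ᶜ, Φ'.toFun x ∈ (closedBall (0 : V) 1)ᶜ :=
    outside_of_unbounded Φ' hΦ' isPreconnected_compl_closedBall (by
      rw [Set.disjoint_left]; intro x hx hx'; exact hx (hS1'b hx')) not_isBounded_compl_closedBall
  have hb'sub : b' ⊆ closedBall (0 : V) 1 := by
    intro x hx
    by_contra hn
    exact hout x hn hx
  -- the open part
  set o' : Set V := Φ'.toFun ⁻¹' ball 0 1 with ho'
  have ho'open : IsOpen o' := isOpen_ball.preimage Φ'.continuous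
  have hb'eq : b' = o' ∪ S1' := by
    ext x
    constructor
    · intro hx
      have h1 : ‖Φ'.toFun x‖ ≤ 1 := by simpa [hb'] using hx
      rcases h1.lt_or_eq with h | h
      · left; simpa [ho'] using h
      · right
        rw [← Φ'.apply_mem_image_iff, hΦ']
        simpa using h
    · rintro (hx | hx)
      · exact ball_subset_closedBall hx
      · have : Φ'.toFun x ∈ sphere (0 : V) 1 := by rw [← hΦ', Φ'.apply_mem_image_iff]; exact hx
        exact sphere_subset_closedBall this
  have ho'S : Disjoint o' S1' := by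
    rw [Set.disjoint_left]
    intro x hx hx'
    have h1 : Φ'.toFun x ∈ sphere (0 : V) 1 := by rw [← hΦ', Φ'.apply_mem_image_iff]; exact hx'
    have h2 : ‖Φ'.toFun x‖ < 1 := by simpa [ho'] using hx
    have h3 : ‖Φ'.toFun x‖ = 1 := by simpa using h1
    exact h2.ne h3
  have ho'ball : o' ⊆ ball (0 : V) 1 := by
    have h1 : o' ⊆ closedBall (0 : V) 1 := fun x hx => hb'sub (ball_subset_closedBall hx)
    have h2 := interior_maximal h1 ho'open
    rwa [interior_closedBall _ one_ne_zero] at h2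
  have ho'pre : IsPreconnected o' := by
    have h1 : o' = Φ'.invFun '' ball 0 1 := by
      ext x
      constructor
      · intro hx; exact ⟨_, hx, Φ'.inv_apply x⟩
      · rintro ⟨y, hy, rfl⟩
        show Φ'.toFun (Φ'.invFun y) ∈ ball (0 : V) 1
        rwa [Φ'.apply_inv]
    rw [h1]
    exact (convex_ball (0 : V) 1).isPreconnected.image _ Φ'.continuous_inv.continuousOn
  -- the ball in `C`
  set b : Set V := φ.invFun '' b' with hb
  have hbC : b ⊆ C := by
    rintro _ ⟨y, hy, rfl⟩; exact φ.mapsTo_inv (hb'sub hy)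
  have hmemb : ∀ x ∈ C, (x ∈ b ↔ φ.toFun x ∈ b') := by
    intro x hx
    constructor
    · rintro ⟨y, hy, rfl⟩; rwa [φ.right_inv (hb'sub hy)]
    · intro h; exact ⟨_, h, φ.left_inv hx⟩
  have hmemS1 : ∀ x ∈ C, (x ∈ d ∪ e ↔ φ.toFun x ∈ S1') := by
    intro x hx
    constructor
    · intro h; exact mem_image_of_mem _ h
    · rintro ⟨x', hx', he⟩
      rw [← φ.injOn (hS1C hx') hx he]; exact hx'
  have hmemS : ∀ x ∈ C, (x ∈ S ↔ φ.toFun x ∈ sphere (0 : V) 1) := by
    intro x hx
    rw [← hφ]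
    constructor
    · intro h; exact mem_image_of_mem _ h
    · rintro ⟨x', hx', he⟩
      rw [← φ.injOn (hSC hx') hx he]; exact hx'
  have hbcomp : IsCompact b := by
    exact ((isCompact_preimage_closedBall Φ').image_of_continuousOn (φ.cont_inv.mono hb'sub))
  have hS1b : d ∪ e ⊆ b := by
    intro x hx
    rw [hmemb x (hS1C hx), hb'eq]
    exact Or.inr (mem_image_of_mem _ hx)
  have hbS : b ∩ S = d := by
    ext x
    constructor
    · rintro ⟨hx, hxS⟩
      have hxC := hbC hx
      have h1 := (hmemb x hxC).1 hx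
      have h2 := (hmemS x hxC).1 hxS
      rw [hb'eq] at h1
      rcases h1 with h1 | h1
      · have h3 := ho'ball h1
        rw [mem_sphere_iff_norm, sub_zero] at h2
        rw [mem_ball, dist_zero_right] at h3
        exact absurd h2 h3.ne
      · rcases (hmemS1 x hxC).2 h1 with h4 | h4
        · exact h4
        · by_contra hn
          have h5 : x ∉ κ := fun h => hn (hκd h)
          exact (heC ⟨h4, h5⟩).2 hxS
    · intro hx
      exact ⟨hS1b (Or.inl hx), hdS hx⟩
  have hdiff : b \ (d ∪ e) = φ.invFun '' o' := by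
    ext x
    constructor
    · rintro ⟨hx, hn⟩
      have hxC := hbC hx
      have h1 := (hmemb x hxC).1 hx
      rw [hb'eq] at h1
      rcases h1 with h1 | h1
      · exact ⟨_, h1, φ.left_inv hxC⟩
      · exact absurd ((hmemS1 x hxC).2 h1) hn
    · rintro ⟨y, hy, rfl⟩
      have hyb : y ∈ b' := ball_subset_closedBall hy
      refine ⟨⟨y, hyb, rfl⟩, fun hn => ?_⟩
      have h1 := (hmemS1 _ (φ.mapsTo_inv (hb'sub hyb))).1 hn
      rw [φ.right_inv (hb'sub hyb)] at h1
      exact Set.disjoint_left.1 ho'S hy h1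
  have hpre : IsPreconnected (b \ (d ∪ e)) := by
    rw [hdiff]
    exact ho'pre.image _ (φ.cont_inv.mono (ho'ball.trans ball_subset_closedBall))
  have hopen : IsOpen (b \ (d ∪ e)) := by
    -- the preimage of `o'` in `C \ S`
    have h1 : b \ (d ∪ e) = (C \ S) ∩ φ.toFun ⁻¹' o' := by
      rw [hdiff]
      ext x
      constructor
      · rintro ⟨y, hy, rfl⟩
        have hyb := ho'ball hy
        have hyc := ball_subset_closedBall hyb
        refine ⟨⟨φ.mapsTo_inv hyc, fun hS => ?_⟩, ?_⟩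
        · have h2 := (hmemS _ (φ.mapsTo_inv hyc)).1 hS
          rw [φ.right_inv hyc, mem_sphere_iff_norm, sub_zero] at h2
          rw [mem_ball, dist_zero_right] at hyb
          exact hyb.ne h2
        · show φ.toFun (φ.invFun y) ∈ o'
          rwa [φ.right_inv hyc]
      · rintro ⟨hx, hx'⟩
        exact ⟨_, hx', φ.left_inv hx.1⟩
    rw [h1]
    exact (φ.cont.mono sdiff_subset).isOpen_inter_preimage hCo ho'open
  -- ambient form
  obtain ⟨Φ, hΦ⟩ := hA (d ∪ e) hS1
  refine ⟨b, hbC, hS1b, hbS, hpre, hbcomp, hopen, Φ, ?_, hΦ⟩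
  -- `b \ (d ∪ e)` is the inside
  have hne : (b \ (d ∪ e)).Nonempty := by
    rw [hdiff]
    refine Nonempty.image _ ?_
    refine ⟨Φ'.invFun 0, ?_⟩
    show Φ'.toFun (Φ'.invFun 0) ∈ ball (0 : V) 1
    rw [Φ'.apply_inv]; simp
  have hunion : Φ.toFun '' b = Φ.toFun '' (b \ (d ∪ e)) ∪ sphere 0 1 := by
    rw [← hΦ, ← image_union, sdiff_union_of_subset hS1b]
  have himopen : IsOpen (Φ.toFun '' (b \ (d ∪ e))) := Φ.toHomeomorph.isOpenMap _ hopen
  have himclosed : IsClosed (Φ.toFun '' b) :=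
    (Φ.toHomeomorph.isClosedMap _ hbcomp.isClosed)
  have himdisj : Disjoint (Φ.toFun '' (b \ (d ∪ e))) (sphere (0 : V) 1) := by
    rw [← hΦ]
    exact (disjoint_image_iff Φ.injective).2 disjoint_sdiff_left
  rcases subset_or_of_std Φ hΦ hpre disjoint_sdiff_left with h | h
  · -- inside
    have hball : ball (0 : V) 1 ⊆ Φ.toFun '' (b \ (d ∪ e)) := by
      have h1 : IsPreconnected (ball (0 : V) 1) := (convex_ball (0 : V) 1).isPreconnected
      have h2 : ball (0 : V) 1 ⊆ Φ.toFun '' (b \ (d ∪ e)) ∪ (Φ.toFun '' b)ᶜ := by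
        intro y hy
        by_cases hyb : y ∈ Φ.toFun '' b
        · left
          rw [hunion] at hyb
          rcases hyb with hyb | hyb
          · exact hyb
          · exfalso
            rw [mem_ball, dist_zero_right] at hy
            rw [mem_sphere_iff_norm, sub_zero] at hyb
            exact hy.ne hyb
        · exact Or.inr hyb
      rcases h1.subset_or_subset himopen himclosed.isOpen_compl (by
        rw [Set.disjoint_left]
        intro y hy hy'
        exact hy' (image_mono sdiff_subset hy)) h2 with h3 | h3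
      · exact h3
      · exfalso
        obtain ⟨x, hx⟩ := hne
        exact h3 (h x hx) (mem_image_of_mem _ hx.1)
    rw [hunion]
    apply Subset.antisymm
    · rintro y (hy | hy)
      · obtain ⟨x, hx, rfl⟩ := hy
        exact ball_subset_closedBall (h x hx)
      · exact sphere_subset_closedBall hy
    · intro y hy
      rw [mem_closedBall, dist_zero_right] at hy
      rcases hy.lt_or_eq with h1 | h1
      · left; exact hball (by simpa using h1)
      · right; simpa using h1
  · -- outside: impossible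
    exfalso
    have hcompl : (closedBall (0 : V) 1)ᶜ ⊆ Φ.toFun '' (b \ (d ∪ e)) := by
      have h2 : (closedBall (0 : V) 1)ᶜ ⊆ Φ.toFun '' (b \ (d ∪ e)) ∪ (Φ.toFun '' b)ᶜ := by
        intro y hy
        by_cases hyb : y ∈ Φ.toFun '' b
        · left
          rw [hunion] at hyb
          rcases hyb with hyb | hyb
          · exact hyb
          · exact absurd (sphere_subset_closedBall hyb) hy
        · exact Or.inr hyb
      rcases isPreconnected_compl_closedBall.subset_or_subset himopen himclosed.isOpen_compl (by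
        rw [Set.disjoint_left]
        intro y hy hy'
        exact hy' (image_mono sdiff_subset hy)) h2 with h3 | h3
      · exact h3
      · exfalso
        obtain ⟨x, hx⟩ := hne
        exact h3 (h x hx) (mem_image_of_mem _ hx.1)
    have h4 : IsCompact (Φ.toFun '' b) := hbcomp.image Φ.continuous
    exact not_isBounded_compl_closedBall (h4.isBounded.subset
      (hcompl.trans (image_mono sdiff_subset)))

/-- **the swap** -/
theorem exists_swap (hA : SpecAlex) (hP : SpecPush) {Ω X2 C S κ d e Z : Set V} (hΩ : IsOpen Ω)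
    (hX2c : ∀ x ∈ Ω, LocConeAt X2 x) (hC : ConBall 3 C S) (hCΩ : C ⊆ Ω) (hCo : IsOpen (C \ S))
    (hCX : Disjoint (C \ S) X2) (hd : ConBall 2 d κ) (hdS : d ⊆ S)
    (hdo : ∀ x ∈ Ω, x ∈ closure (X2 \ (d \ κ)) → x ∈ X2 \ (d \ κ))
    (he : ConBall 2 e κ) (heC : e \ κ ⊆ C \ S)
    (hZ : ∀ x ∈ Ω, x ∈ closure Z → x ∈ Z) (hZe : Disjoint Z e) (hZd : Disjoint Z d)
    (hZC : ∀ z ∈ Z ∩ C, ∃ P, IsPreconnected P ∧ P ⊆ Z ∩ C ∧ z ∈ P ∧ (P ∩ S).Nonempty) :
    ∃ Ψ : ConHomeo Ω Ω, (∀ x ∈ Ω, x ∈ X2 → x ∉ d \ κ → Ψ.toFun x = x) ∧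
      (∀ x ∈ Ω, x ∈ Z → Ψ.toFun x = x) ∧ Ψ.toFun '' d = e := by
  obtain ⟨b, hbC, hS1b, hbS, hpre, hbcomp, hopen, Φ, hΦb, hΦS⟩ :=
    exists_ambient_ball hA hC hCo hd hdS he heC
  have hκd : κ ⊆ d := hd.1
  have hκe : κ ⊆ e := he.1
  have hSC : S ⊆ C := hC.1
  have hde : d ∩ e = κ := by
    apply Subset.antisymm
    · rintro x ⟨hx, hx'⟩
      by_contra hn
      exact (heC ⟨hx', hn⟩).2 (hdS hx)
    · exact subset_inter hκd hκe
  -- `Z` misses `b`
  have hZb : Disjoint Z b := by
    rw [Set.disjoint_left]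
    intro z hz hzb
    have hzS1 : z ∉ d ∪ e := by
      rintro (h | h)
      · exact Set.disjoint_left.1 hZd hz h
      · exact Set.disjoint_left.1 hZe hz h
    obtain ⟨P, hP1, hP2, hP3, w, hwP, hwS⟩ := hZC z ⟨hz, hbC hzb⟩
    -- `P` is covered by the open sets `b \ (d ∪ e)` and `bᶜ`
    have hcov : P ⊆ (b \ (d ∪ e)) ∪ bᶜ := by
      intro y hy
      by_cases hyb : y ∈ b
      · left
        refine ⟨hyb, ?_⟩
        rintro (h | h)
        · exact Set.disjoint_left.1 hZd (hP2 hy).1 h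
        · exact Set.disjoint_left.1 hZe (hP2 hy).1 h
      · exact Or.inr hyb
    rcases hP1.subset_or_subset hopen hbcomp.isClosed.isOpen_compl (by
      rw [Set.disjoint_left]; intro y hy hy'; exact hy' hy.1) hcov with h | h
    · have h1 := h hwP
      have h2 : w ∈ b ∩ S := ⟨h1.1, hwS⟩
      rw [hbS] at h2
      exact h1.2 (Or.inl h2)
    · exact h hP3 hzb
  -- the neighbourhood
  set W : Set V := Ω \ closure Z with hW
  have hWo : IsOpen W := hΩ.sdiff isClosed_closure
  have hbW : b ⊆ W := fun x hx => ⟨hCΩ (hbC hx), fun h =>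
    Set.disjoint_left.1 hZb (hZ x (hCΩ (hbC hx)) h) hx⟩
  have hZ'c : ∀ x ∈ Ω, LocConeAt (X2 \ (d \ κ)) x := by
    intro x hx
    have h1 : X2 \ (d \ κ) = X2 ∩ (d ∩ κᶜ)ᶜ := by rw [sdiff_eq, sdiff_eq]
    rw [h1]
    exact (hX2c x hx).inter ((hd.locCone x).inter (hd.conSphere.locCone x).compl).compl
  have hZ'b : (X2 \ (d \ κ)) ∩ b ⊆ κ := by
    rintro x ⟨⟨hx2, hxn⟩, hxb⟩
    have hxS : x ∈ S := by
      by_contra hn
      exact Set.disjoint_left.1 hCX ⟨hbC hxb, hn⟩ hx2
    have hxd : x ∈ d := by rw [← hbS]; exact ⟨hxb, hxS⟩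
    by_contra hn
    exact hxn ⟨hxd, hn⟩
  obtain ⟨Ψ, hΨ1, hΨ2, hΨ3⟩ := hP Ω W b d e κ (X2 \ (d \ κ)) hΩ hWo sdiff_subset hbW
    ⟨Φ, hΦb, hΦS⟩ hd he hde hdo hZ'c hZ'b
  refine ⟨Ψ, fun x hx hx2 hxn => hΨ2 x ⟨hx2, hxn⟩ hx, fun x hx hxZ => hΨ1 x hx ?_, hΨ3⟩
  exact fun h => h.2 (subset_closure hxZ)

end P073.GB3
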