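import Vale.Agent.P073.GB3.Circ2

/-!
# P073, block GB2 (CIRC): innermost circles, condensation points
-/

open Set Metric Topology Filter

namespace P073

/-- a subset of a second countable linear order all of whose initial segments are countable is
countable. -/
theorem countable_of_Iio {α : Type*} [LinearOrder α] [TopologicalSpace α] [OrderTopology α]
    [SecondCountableTopology α] {F : Set α} (h : ∀ t ∈ F, (F ∩ Iio t).Countable) :
    F.Countable := by
  obtain ⟨D, hDc, hDd⟩ := TopologicalSpace.exists_countable_dense F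
  have h1 : F ⊆ (⋃ d ∈ D, F ∩ Iio (d : α)) ∪ {x | x ∈ F ∧ ∀ y ∈ F, y ≤ x} := by
    intro x hx
    by_cases hmax : ∀ y ∈ F, y ≤ x
    · exact Or.inr ⟨hx, hmax⟩
    · left
      push Not at hmax
      obtain ⟨y, hy, hxy⟩ := hmax
      have ho : IsOpen {z : F | x < (z : α)} := isOpen_Ioi.preimage continuous_subtype_val
      obtain ⟨d, hd1, hd2⟩ := hDd.exists_mem_open ho ⟨⟨y, hy⟩, hxy⟩
      exact mem_biUnion hd1 ⟨hx, hd2⟩
  refine Countable.mono h1 (Countable.union (hDc.biUnion fun d _ => h d d.2) ?_)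
  refine Set.Subsingleton.countable ?_
  rintro a ⟨ha, ha'⟩ b ⟨hb, hb'⟩
  exact le_antisymm (hb' a ha) (ha' b hb)

theorem countable_left_isolated (A : Set ℝ) :
    {t | t ∈ A ∧ ∃ ε > 0, (A ∩ Ioo (t - ε) t).Countable}.Countable := by
  have h1 : {t | t ∈ A ∧ ∃ ε > 0, (A ∩ Ioo (t - ε) t).Countable} ⊆
      ⋃ q : ℚ, {t | t ∈ A ∧ (q : ℝ) < t ∧ (A ∩ Ioo (q : ℝ) t).Countable} := by
    rintro t ⟨ht, ε, hε, hc⟩
    obtain ⟨q, hq1, hq2⟩ := exists_rat_btwn (show t - ε < t by linarith)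
    refine mem_iUnion.2 ⟨q, ht, hq2, hc.mono ?_⟩
    exact inter_subset_inter_right _ (Ioo_subset_Ioo_left hq1.le)
  refine Countable.mono h1 (countable_iUnion fun q => ?_)
  apply countable_of_Iio
  rintro t ⟨ht, hqt, hc⟩
  refine hc.mono ?_
  rintro s ⟨⟨hs, hqs, _⟩, hst⟩
  exact ⟨hs, hqs, hst⟩

theorem countable_right_isolated (A : Set ℝ) :
    {t | t ∈ A ∧ ∃ ε > 0, (A ∩ Ioo t (t + ε)).Countable}.Countable := by
  have h1 := countable_left_isolated (Neg.neg '' A)
  refine (h1.image Neg.neg).mono ?_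
  rintro t ⟨ht, ε, hε, hc⟩
  refine ⟨-t, ⟨mem_image_of_mem _ ht, ε, hε, ?_⟩, neg_neg t⟩
  refine (hc.image Neg.neg).mono ?_
  rintro _ ⟨⟨s, hs, rfl⟩, h1, h2⟩
  exact ⟨s, ⟨hs, by linarith, by linarith⟩, rfl⟩

/-- An uncountable set of reals has a point which is a two-sided condensation point. -/
theorem exists_condensation {A : Set ℝ} (hA : ¬ A.Countable) :
    ∃ t ∈ A, ∀ ε > 0, ¬ (A ∩ Ioo (t - ε) t).Countable ∧ ¬ (A ∩ Ioo t (t + ε)).Countable := by
  by_contra hcon
  push Not at hcon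
  apply hA
  refine ((countable_left_isolated A).union (countable_right_isolated A)).mono ?_
  intro t ht
  obtain ⟨ε, hε, h⟩ := hcon t ht
  by_cases h1 : (A ∩ Ioo (t - ε) t).Countable
  · exact Or.inl ⟨ht, ε, hε, h1⟩
  · exact Or.inr ⟨ht, ε, hε, h h1⟩

variable {E F : Type*} [NormedAddCommGroup E] [NormedSpace ℝ E]
  [NormedAddCommGroup F] [NormedSpace ℝ F]

theorem ConBall.isPreconnected_diff {n : ℕ} {C B : Set E} (h : ConBall n C B) :
    IsPreconnected (C \ B) := by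
  obtain ⟨hBC, φ, hφ⟩ := h
  have h1 : C \ B = φ.invFun '' ball 0 1 := by
    ext x
    constructor
    · rintro ⟨hx, hn⟩
      refine ⟨φ.toFun x, ?_, φ.left_inv hx⟩
      have h2 : φ.toFun x ∈ closedBall (0 : Fin n → ℝ) 1 := φ.mapsTo hx
      rw [mem_closedBall, dist_zero_right] at h2
      rcases h2.lt_or_eq with h3 | h3
      · simpa using h3
      · exfalso
        have h4 : φ.toFun x ∈ φ.toFun '' B := by rw [hφ]; simpa using h3
        obtain ⟨x', hx', he⟩ := h4
        exact hn (φ.injOn (hBC hx') hx he ▸ hx')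
    · rintro ⟨y, hy, rfl⟩
      refine ⟨φ.mapsTo_inv (ball_subset_closedBall hy), fun hB => ?_⟩
      have h2 : φ.toFun (φ.invFun y) ∈ φ.toFun '' B := mem_image_of_mem _ hB
      rw [φ.right_inv (ball_subset_closedBall hy), hφ, mem_sphere_iff_norm, sub_zero] at h2
      rw [mem_ball, dist_zero_right] at hy
      exact hy.ne h2
  rw [h1]
  exact (convex_ball (0 : Fin n → ℝ) 1).isPreconnected.image _
    (φ.cont_inv.mono ball_subset_closedBall)

theorem ConBall.diff_nonempty {n : ℕ} {C B : Set E} (h : ConBall n C B) : (C \ B).Nonempty := by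
  obtain ⟨hBC, φ, hφ⟩ := h
  have h0 : (0 : Fin n → ℝ) ∈ closedBall (0 : Fin n → ℝ) 1 := by simp
  refine ⟨φ.invFun 0, φ.mapsTo_inv h0, fun hB => ?_⟩
  have h2 : φ.toFun (φ.invFun 0) ∈ φ.toFun '' B := mem_image_of_mem _ hB
  rw [φ.right_inv h0, hφ] at h2
  simp at h2

/-- the open disc is dense in the disc -/
theorem ConBall.subset_of_diff_subset {n : ℕ} {C B D : Set E} (h : ConBall (n + 1) C B)
    (hD : IsClosed D) (hsub : ∀ x ∈ C \ B, x ∈ D) {x : E} (hx : x ∈ C) : x ∈ D := by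
  obtain ⟨hBC, φ, hφ⟩ := h
  have hball : ∀ y ∈ ball (0 : Fin (n + 1) → ℝ) 1, φ.invFun y ∈ D := by
    intro y hy
    refine hsub _ ⟨φ.mapsTo_inv (ball_subset_closedBall hy), fun hB => ?_⟩
    have h2 : φ.toFun (φ.invFun y) ∈ φ.toFun '' B := mem_image_of_mem _ hB
    rw [φ.right_inv (ball_subset_closedBall hy), hφ, mem_sphere_iff_norm, sub_zero] at h2
    rw [mem_ball, dist_zero_right] at hy
    exact hy.ne h2
  have h1 : φ.toFun x ∈ closure (ball (0 : Fin (n + 1) → ℝ) 1) := by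
    rw [closure_ball _ one_ne_zero]; exact φ.mapsTo hx
  have h2 : ContinuousWithinAt φ.invFun (ball (0 : Fin (n + 1) → ℝ) 1) (φ.toFun x) :=
    (φ.cont_inv _ (φ.mapsTo hx)).mono ball_subset_closedBall
  have h3 := h2.mem_closure h1 (t := D) hball
  rw [φ.left_inv hx, hD.closure_eq] at h3
  exact h3

/-- **Innermost circle**: among finitely many disjoint conical circles in a surface with the
Jordan-Schoenflies property, disjoint from the connected set `Γ`, one bounds a disc which misses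
`Γ` and the other circles. -/
theorem exists_innermost {S Γ : Set E} (hJS : JordanSch 2 S) (hΓ : IsPreconnected Γ)
    (hΓne : Γ.Nonempty) (hΓS : Γ ⊆ S) {K : Set (Set E)} (hfin : K.Finite) (hne : K.Nonempty)
    (hc : ∀ κ ∈ K, ConSphere 1 κ) (hsub : ∀ κ ∈ K, κ ⊆ S)
    (hdisj : ∀ κ ∈ K, ∀ κ' ∈ K, κ ≠ κ' → Disjoint κ κ') (hΓd : ∀ κ ∈ K, Disjoint Γ κ) :
    ∃ κ ∈ K, ∃ e, ConBall 2 e κ ∧ e ⊆ S ∧ Disjoint Γ e ∧
      (∀ κ' ∈ K, κ' ≠ κ → Disjoint κ' e) ∧
      ∀ A ⊆ S, IsPreconnected A → Disjoint A κ → (A ∩ Γ).Nonempty → Disjoint A e := by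
  classical
  obtain ⟨p, hp⟩ := hΓne
  have hsides : ∀ κ ∈ K, ∃ U W : Set E, Disjoint U W ∧ U ∪ W = S \ κ ∧
      ConBall 2 (U ∪ κ) κ ∧ ConBall 2 (W ∪ κ) κ ∧ Γ ⊆ W := by
    intro κ hκ
    obtain ⟨U, W, hUW, hS, -, -, hUb, hWb⟩ := hJS κ (hsub κ hκ) (hc κ hκ)
    have hcov : Γ ⊆ (U ∪ κ) ∪ (W ∪ κ) := by
      intro x hx
      have : x ∈ U ∪ W := by rw [hS]; exact ⟨hΓS hx, Set.disjoint_left.1 (hΓd κ hκ) hx⟩
      rcases this with h | h
      · exact Or.inl (Or.inl h)
      · exact Or.inr (Or.inl h)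
    rcases IsPreconnected.subset_or hΓ hUb.isClosed hWb.isClosed hcov (by
      intro x hx h1 h2
      rcases h1 with h1 | h1
      · rcases h2 with h2 | h2
        · exact Set.disjoint_left.1 hUW h1 h2
        · exact Set.disjoint_left.1 (hΓd κ hκ) hx h2
      · exact Set.disjoint_left.1 (hΓd κ hκ) hx h1) with h | h
    · exact ⟨W, U, hUW.symm, by rw [union_comm]; exact hS, hWb, hUb,
        fun x hx => (h hx).resolve_right (Set.disjoint_left.1 (hΓd κ hκ) hx)⟩
    · exact ⟨U, W, hUW, hS, hUb, hWb,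
        fun x hx => (h hx).resolve_right (Set.disjoint_left.1 (hΓd κ hκ) hx)⟩
  choose U W hUW hS hUb hWb hΓW using fun j : K => hsides j.1 j.2
  have : Finite K := hfin
  have : Nonempty K := hne.to_subtype
  have hside : ∀ (j : K) (A : Set E), IsPreconnected A → A ⊆ S → Disjoint A j.1 →
      A ⊆ U j ∨ A ⊆ W j := by
    intro j A hA hAS hAd
    have hcov : A ⊆ (U j ∪ j.1) ∪ (W j ∪ j.1) := by
      intro x hx
      have : x ∈ U j ∪ W j := by rw [hS]; exact ⟨hAS hx, Set.disjoint_left.1 hAd hx⟩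
      rcases this with h | h
      · exact Or.inl (Or.inl h)
      · exact Or.inr (Or.inl h)
    rcases IsPreconnected.subset_or hA (hUb j).isClosed (hWb j).isClosed hcov (by
      intro x hx h1 h2
      rcases h1 with h1 | h1
      · rcases h2 with h2 | h2
        · exact Set.disjoint_left.1 (hUW j) h1 h2
        · exact Set.disjoint_left.1 hAd hx h2
      · exact Set.disjoint_left.1 hAd hx h1) with h | h
    · left; exact fun x hx => (h hx).resolve_right (Set.disjoint_left.1 hAd hx)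
    · right; exact fun x hx => (h hx).resolve_right (Set.disjoint_left.1 hAd hx)
  have hlam := laminar_of_sides (S := S) (p := p) (fun j : K => j.1) U W
    (fun j => hsub _ j.2) (fun j => (hc _ j.2).nonempty) hUW hS (fun j => (hUb j).isClosed)
    (fun j => (hWb j).isClosed) (fun j => (hUb j).isPreconnected)
    (fun j => (hWb j).isPreconnected) (fun j => hΓW j hp)
    (fun i j hij => hdisj _ i.2 _ j.2 fun h => hij (Subtype.ext h))
    (fun i j hij => hside j i.1 (hc _ i.2).isPreconnected (hsub _ i.2)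
      (hdisj _ i.2 _ j.2 fun h => hij (Subtype.ext h)))
  obtain ⟨j, hj⟩ : ∃ j : K, ∀ i : K, U i ∪ i.1 ⊆ U j ∪ j.1 → U j ∪ j.1 ⊆ U i ∪ i.1 := by
    obtain ⟨j, hj⟩ := Set.Finite.exists_minimalFor (fun j : K => U j ∪ j.1) Set.univ
      Set.finite_univ Set.univ_nonempty
    exact ⟨j, fun i hi => hj.2 (mem_univ i) hi⟩
  refine ⟨j.1, j.2, U j ∪ j.1, hUb j, ?_, ?_, ?_, ?_⟩
  · rintro x (hx | hx)
    · exact ((Set.ext_iff.1 (hS j) x).1 (Or.inl hx)).1
    · exact hsub _ j.2 hx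
  · rw [Set.disjoint_left]
    rintro x hx (h | h)
    · exact Set.disjoint_left.1 (hUW j) h (hΓW j hx)
    · exact Set.disjoint_left.1 (hΓd _ j.2) hx h
  · intro κ' hκ' hne'
    have hij : (⟨κ', hκ'⟩ : K) ≠ j := fun h => hne' (congrArg Subtype.val h)
    rcases hlam ⟨κ', hκ'⟩ j hij with h | h | h
    · exact h.mono_left subset_union_right
    · exfalso
      have h1 := hj ⟨κ', hκ'⟩ (h.trans sdiff_subset)
      obtain ⟨x, hx⟩ := (hc _ j.2).nonempty
      exact (h (h1 (Or.inr hx))).2 hx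
    · rw [Set.disjoint_left]
      intro x hx hx'
      exact (h hx').2 hx
  · intro A hAS hA hAκ ⟨q, hqA, hqΓ⟩
    rcases hside j A hA hAS hAκ with h | h
    · exact absurd (hΓW j hqΓ) (Set.disjoint_left.1 (hUW j) (h hqA))
    · rw [Set.disjoint_left]
      rintro x hx (h1 | h1)
      · exact Set.disjoint_left.1 (hUW j) h1 (h hx)
      · exact Set.disjoint_left.1 hAκ hx h1

end P073
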