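import Vale.Agent.P073.GB3.CtxCx3

/-!
# P073, block GB2: proof of `SpecClean'` from the level lemma `SpecLevels`
-/

open Set Metric Topology Filter

namespace P073.GB3

open P073 P073.GB73 P073.PR720
open Vale.Agent.P073.St (V)

variable {Vx B J I : Type} {e0 e1 : B → Vx} {inc : B → J → Prop} {qC : J → I → Prop}
  {Ω Λ : Set V}

section lemmas

variable (K : Cx3 e0 e1 inc qC Ω)

theorem arc_sub_cx1 (b : B) : K.arc b ⊆ cx1 K := subset_iUnion _ b

theorem vert_mem_arc0 (b : B) : K.y (e0 b) ∈ K.arc b := (K.ball b).1 (Or.inl rfl)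

theorem vert_mem_arc1 (b : B) : K.y (e1 b) ∈ K.arc b := (K.ball b).1 (Or.inr rfl)

/-- the crossing conditions only depend on the map on the net -/
theorem crosses_congr {h k : V → V} {A : Set V} {P : Set B} {y : B → V}
    (hc : Crosses K.toGraph h A P y) (hk : ∀ x ∈ cx1 K, k x = h x) :
    Crosses K.toGraph k A P y := by
  have himg : ∀ b, k '' K.arc b = h '' K.arc b := fun b =>
    image_congr fun x hx => hk x (arc_sub_cx1 K b hx)
  have h0 : ∀ b, k (K.y (e0 b)) = h (K.y (e0 b)) := fun b =>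
    hk _ (arc_sub_cx1 K b (vert_mem_arc0 K b))
  have h1 : ∀ b, k (K.y (e1 b)) = h (K.y (e1 b)) := fun b =>
    hk _ (arc_sub_cx1 K b (vert_mem_arc1 K b))
  refine ⟨fun b hb => ?_, fun b hb => ?_, fun b hb => ?_⟩
  · rw [himg]; exact hc.off b hb
  · rw [himg]; exact hc.on b hb
  · rw [h0, h1]; exact hc.ends b hb

theorem mem_arc_of_mem_tile {j j' : J} {x : V} (hne : j ≠ j') (hx : x ∈ K.tile j)
    (hx' : x ∈ K.tile j') : ∃ b, inc b j ∧ x ∈ K.arc b := by
  obtain ⟨b, hb⟩ := mem_iUnion.1 (K.tile_tile j j' hne ⟨hx, hx'⟩)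
  obtain ⟨b', hb', hx2⟩ := mem_iUnion₂.1 (K.tile_arc j b ⟨hx, hb⟩)
  exact ⟨b', hb', hx2⟩

theorem crossing_point {k : ConHomeo Ω Λ} {A : Set V} {P : Set B} {y : B → V}
    (hA : A ⊆ Λ) (hAc : IsClosed A) (hc : Crosses K.toGraph k.toFun A P y) {b : B} (hb : b ∈ P) :
    k.invFun (y b) ∈ K.arc b ∧ y b ∈ Λ ∧ y b ∈ frontier A ∧ k.toFun (k.invFun (y b)) = y b := by
  have h1 : y b ∈ k.toFun '' K.arc b ∩ frontier A := by rw [hc.on b hb]; exact rfl
  have h2 : y b ∈ Λ := hA (hAc.frontier_subset h1.2)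
  obtain ⟨x, hx, hxy⟩ := h1.1
  have hxΩ : x ∈ Ω := cx2_subset K (cx1_subset K (arc_sub_cx1 K b hx))
  refine ⟨?_, h2, h1.2, k.right_inv h2⟩
  rw [← hxy, k.left_inv hxΩ]; exact hx

end lemmas

/-- one body -/
theorem clean_one (hAl : SpecAlex) (hJ : SpecJS) (hPu : SpecPush) (hLev : SpecLevels)
    (K : Cx3 e0 e1 inc qC Ω) (h : ConHomeo Ω Λ) (hΩ : IsOpen Ω) (hΛ : IsOpen Λ) {Z : Set V}
    (hZ : Prot K Z) {A : Body} {P : Set B} {y : ℝ → B → V} (hA : A.Good Λ)
    (hball : ∀ t ∈ A.T, ConBall 3 (A.at t) (frontier (A.at t))) (hP : Pat inc P)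
    (hcr : ∀ t ∈ A.T, Crosses K.toGraph h.toFun (A.at t) P (y t))
    (hZA : ∀ s ∈ A.T, Disjoint (h.toFun '' Z) (A.at s)) {D : Set J} {O : J → Set V}
    (hO1 : ∀ i ∈ D, ∀ x ∈ K.tile i, h.toFun x ∈ O i)
    (hO2 : ∀ i ∈ D, ∀ t ∈ A.T, IsPreconnected (frontier (A.at t) \ O i) ∧
      ∃ b ∈ P, y t b ∉ O i) :
    ∃ t ∈ A.T, ∃ k' : ConHomeo Ω Λ, (∀ x ∈ cx1 K, k'.toFun x = h.toFun x) ∧
      (∀ x ∈ Z, k'.toFun x = h.toFun x) ∧ (∀ i ∈ D, ∀ x ∈ K.tile i, k'.toFun x ∈ O i) ∧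
      ∃ α : J → Set V, LevArcs K h A P (y t) t α ∧
        {x | x ∈ cx2 K ∧ bg A (k'.toFun x) = t} = (⋃ j, α j) ∧
        ∀ x ∈ ⋃ j, α j, ∀ᶠ z in 𝓝 x, z ∈ cx2 K → k'.toFun z = h.toFun z := by
  obtain ⟨T', hT', hT'c, α, S, hLS⟩ := hLev Vx B J I e0 e1 inc qC Ω Λ K h hΩ hΛ A P y hA hP hcr
  have hfront : ∀ t ∈ A.T, {z | z ∈ Λ ∧ bg A z = t} = frontier (A.at t) := by
    intro t ht
    ext z
    constructor
    · rintro ⟨-, hz⟩; exact (eq_iff_mem_frontier_at hA (hA.pos t ht)).1 hz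
    · intro hz
      exact ⟨hA.sub t ht ((hball t ht).isClosed.frontier_subset hz),
        (eq_iff_mem_frontier_at hA (hA.pos t ht)).2 hz⟩
  have hΓ : ∀ t ∈ T', ∀ b ∈ P, h.invFun (y t b) ∈ ⋃ j, α t j := by
    intro t ht b hb
    obtain ⟨j, hj⟩ := K.arc_tile b
    have hbj : b ∈ {b | inc b j ∧ b ∈ P} := ⟨hj, hb⟩
    rcases hP.two j with h1 | ⟨b1, b2, hne, h1⟩
    · rw [h1] at hbj; exact hbj.elim
    · have h2 := ((hLS t ht).1.arc j b1 b2 hne h1).1.1
      refine mem_iUnion.2 ⟨j, h2 ?_⟩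
      rw [h1] at hbj
      rcases hbj with hbj | hbj
      · rw [hbj]; exact Or.inl rfl
      · have : b = b2 := hbj
        rw [this]; exact Or.inr rfl
  -- a bound for the number of circles
  obtain ⟨m, hm⟩ : ∃ m : ℕ, ¬ ({t | t ∈ T' ∧ (S t).ncard ≤ m} : Set ℝ).Countable := by
    by_contra hcon
    push Not at hcon
    apply hT'c
    refine (countable_iUnion hcon).mono ?_
    intro t ht
    exact mem_iUnion.2 ⟨(S t).ncard, ht, le_rfl⟩
  obtain ⟨t, ht, k', h1, h2, h3, h4, h5⟩ := circ hAl hJ hPu (ctx_of_cx3 K hΩ hZ) (g := bg A)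
    (continuous_bg hA).continuousOn (I := D) (O := O) (fun t => ⋃ j, α t j)
    m h {t | t ∈ T' ∧ (S t).ncard ≤ m} S hm (fun t ht => (hLS t ht.1).2) (fun t ht => ht.2)
    (fun t ht => by
      rw [hfront t (hT' ht.1)]
      exact conBall_jordanSch (hball t (hT' ht.1)) hJ)
    (fun t ht x hx hxZ he => by
      have h6 : h.toFun x ∈ A.at t := by
        rw [← le_iff_mem_at hA (hA.pos t (hT' ht.1))]; exact he.le
      exact Set.disjoint_left.1 (hZA t (hT' ht.1)) (mem_image_of_mem _ hxZ) h6)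
    hO1
    (fun i hi t ht => by
      rw [hfront t (hT' ht.1)]
      obtain ⟨h6, b, hb, hbO⟩ := hO2 i hi t (hT' ht.1)
      refine ⟨h6, h.invFun (y t b), hΓ t ht.1 b hb, ?_⟩
      obtain ⟨-, -, -, h7⟩ := crossing_point K (hA.sub t (hT' ht.1))
        (hball t (hT' ht.1)).isClosed (hcr t (hT' ht.1)) hb
      rw [h7]; exact hbO)
  exact ⟨t, hT' ht.1, k', h2, fun x hx => h3 x (hZ.sub hx) hx, h5, α t, (hLS t ht.1).1, h1, h4⟩

/-- **(GB2)** -/
theorem specClean (hAl : SpecAlex) (hJ : SpecJS) (hPu : SpecPush) (hLev : SpecLevels) :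
    SpecClean' := by
  intro Vx B J I e0 e1 inc qC Ω Λ K h hΩ hΛ F A P y A0 P0 y0 hAg hA0g hAb hA0b hPat hPat0
    hCr hCr0 hbd hsep hsep0 Z hZ hZA hZA0
  classical
  -- cleaning of the faces, one after the other
  have key : ∀ D : Finset J, D ⊆ F → ∃ (k : ConHomeo Ω Λ) (t : J → ℝ),
      (∀ x ∈ cx1 K, k.toFun x = h.toFun x) ∧ (∀ x ∈ Z, k.toFun x = h.toFun x) ∧
      (∀ σ ∈ F, t σ ∈ (A σ).T) ∧
      ∀ σ ∈ D, ∀ x ∈ K.tile σ, k.toFun x ∈ interior ((A σ).at (t σ)) := by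
    intro D
    induction D using Finset.induction_on with
    | empty =>
      intro _
      have hne : ∀ σ ∈ F, ∃ t, t ∈ (A σ).T := by
        intro σ hσ
        by_contra hcon
        push Not at hcon
        apply (hAg σ hσ).unc
        rw [eq_empty_iff_forall_notMem.2 hcon]
        exact countable_empty
      choose! t ht using hne
      exact ⟨h, t, fun _ _ => rfl, fun _ _ => rfl, ht, fun σ hσ => by simp at hσ⟩
    | insert σ D hσD ih =>
      intro hsub
      have hσF : σ ∈ F := hsub (Finset.mem_insert_self σ D)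
      have hDF : D ⊆ F := fun i hi => hsub (Finset.mem_insert_of_mem hi)
      obtain ⟨k, t, hk1, hkZ, ht, hkD⟩ := ih hDF
      have hcrk : ∀ s ∈ (A σ).T, Crosses K.toGraph k.toFun ((A σ).at s) (P σ) (y σ s) :=
        fun s hs => crosses_congr K (hCr σ hσF s hs) hk1
      have hZk : ∀ s ∈ (A σ).T, Disjoint (k.toFun '' Z) ((A σ).at s) := by
        intro s hs
        rw [image_congr hkZ]; exact hZA σ hσF s hs
      have hneD : ∀ i ∈ D, i ≠ σ := fun i hi he => hσD (he ▸ hi)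
      obtain ⟨s, hs, k', hk'1, hk'Z, hk'D, α, hα, hαeq, hαev⟩ := clean_one hAl hJ hPu hLev K k hΩ
        hΛ hZ (hAg σ hσF) (hAb σ hσF) (hPat σ hσF) hcrk hZk (D := {i | i ∈ D})
        (O := fun i => interior ((A i).at (t i))) (fun i hi x hx => hkD i hi x hx)
        (fun i hi s hs => hsep i (hDF hi) σ hσF (hneD i hi) (t i) (ht i (hDF hi)) s hs)
      have hspos : 0 < s := (hAg σ hσF).pos s hs
      refine ⟨k', Function.update t σ s, fun x hx => (hk'1 x hx).trans (hk1 x hx),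
        fun x hx => (hk'Z x hx).trans (hkZ x hx), fun i hi => ?_, fun i hi x hx => ?_⟩
      · by_cases hiσ : i = σ
        · rw [hiσ, Function.update_self]; exact hs
        · rw [Function.update_of_ne hiσ]; exact ht i hi
      · rcases Finset.mem_insert.1 hi with hiσ | hiD
        swap
        · rw [Function.update_of_ne (hneD i hiD)]
          exact hk'D i hiD x hx
        subst hiσ
        rw [Function.update_self]
        -- the boundary of the face is inside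
        have hbin : ∀ z ∈ K.toCx2.bd i, bg (A i) (k'.toFun z) < s := by
          intro z hz
          obtain ⟨b, hb, hzb⟩ := mem_iUnion₂.1 hz
          have hz1 : z ∈ cx1 K := arc_sub_cx1 K b hzb
          rw [hk'1 z hz1, hk1 z hz1, lt_iff_mem_interior_at (hAg i hσF) hspos]
          exact hbd i hσF s hs (mem_image_of_mem _ hz)
        have hunc : {b | inc b i ∧ b ∈ P i} = ∅ := by
          rw [eq_empty_iff_forall_notMem]
          rintro b ⟨hbi, hbP⟩
          have hends := (hCr i hσF s hs).ends b hbP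
          have hin : ∀ z ∈ K.arc b, h.toFun z ∈ interior ((A i).at s) := fun z hz =>
            hbd i hσF s hs (mem_image_of_mem _ (mem_biUnion (show b ∈ {b | inc b i} from hbi) hz))
          rcases hends with ⟨-, h2⟩ | ⟨-, h2⟩
          · exact h2 (interior_subset (hin _ (vert_mem_arc1 K b)))
          · exact h2 (interior_subset (hin _ (vert_mem_arc0 K b)))
        have hmiss : ∀ z ∈ K.tile i, bg (A i) (k'.toFun z) ≠ s := by
          intro z hz he
          have h1 : z ∈ ⋃ j, α j := by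
            rw [← hαeq]; exact ⟨mem_iUnion.2 ⟨i, hz⟩, he⟩
          obtain ⟨j, hj⟩ := mem_iUnion.1 h1
          by_cases hij : i = j
          · subst hij
            rw [hα.empty i hunc] at hj; exact hj
          · obtain ⟨b, hb, hzb⟩ := mem_arc_of_mem_tile K hij hz (hα.sub j hj)
            have := hbin z (mem_biUnion (show b ∈ {b | inc b i} from hb) hzb)
            exact this.ne he
        have hcont : ContinuousOn (fun z => bg (A i) (k'.toFun z)) (K.tile i) :=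
          (continuous_bg (hAg i hσF)).comp_continuousOn
            (k'.cont.mono ((subset_iUnion _ i).trans (cx2_subset K)))
        have hpre : IsPreconnected ((fun z => bg (A i) (k'.toFun z)) '' K.tile i) :=
          (K.tball i).isPreconnected.image _ hcont
        obtain ⟨z0, hz0⟩ : (K.toCx2.bd i).Nonempty := (K.tball i).conSphere.nonempty
        rw [← lt_iff_mem_interior_at (hAg i hσF) hspos]
        by_contra hcon
        push Not at hcon
        have h3 : s ∈ (fun z => bg (A i) (k'.toFun z)) '' K.tile i :=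
          hpre.ordConnected.out (mem_image_of_mem _ (K.toCx2.bd_subset i hz0))
            (mem_image_of_mem _ hx) ⟨(hbin z0 hz0).le, hcon⟩
        obtain ⟨z, hz, he⟩ := h3
        exact hmiss z hz he
  obtain ⟨k, t, hk1, hkZ, ht, hkD⟩ := key F (Finset.Subset.refl F)
  -- the last body
  have hcrk : ∀ s ∈ A0.T, Crosses K.toGraph k.toFun (A0.at s) P0 (y0 s) :=
    fun s hs => crosses_congr K (hCr0 s hs) hk1
  have hZk : ∀ s ∈ A0.T, Disjoint (k.toFun '' Z) (A0.at s) := by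
    intro s hs
    rw [image_congr hkZ]; exact hZA0 s hs
  obtain ⟨t0, ht0, h', h'1, h'Z, h'D, α, hα, hαeq, hαev⟩ := clean_one hAl hJ hPu hLev K k hΩ
    hΛ hZ hA0g hA0b hPat0 hcrk hZk (D := {i | i ∈ F})
    (O := fun i => interior ((A i).at (t i))) (fun i hi x hx => hkD i hi x hx)
    (fun i hi s hs => hsep0 i hi (t i) (ht i hi) s hs)
  have ht0pos : 0 < t0 := hA0g.pos t0 ht0
  have hcr' : Crosses K.toGraph h'.toFun (A0.at t0) P0 (y0 t0) := crosses_congr K (hcrk t0 ht0) h'1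
  have hA0sub := hA0g.sub t0 ht0
  have hA0cl : IsClosed (A0.at t0) := (hA0b t0 ht0).isClosed
  have hαev' : ∀ x ∈ ⋃ j, α j, h'.toFun x = k.toFun x := fun x hx =>
    (hαev x hx).self_of_nhds (by rw [← hαeq] at hx; exact hx.1)
  have hinv : ∀ b ∈ P0, h'.invFun (y0 t0 b) = k.invFun (y0 t0 b) := by
    intro b hb
    obtain ⟨h1, h2, -, h3⟩ := crossing_point K hA0sub hA0cl (hcrk t0 ht0) hb
    have h4 : h'.toFun (k.invFun (y0 t0 b)) = y0 t0 b := by
      rw [h'1 _ (arc_sub_cx1 K b h1), h3]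
    have h5 : k.invFun (y0 t0 b) ∈ Ω := k.mapsTo_inv h2
    calc h'.invFun (y0 t0 b) = h'.invFun (h'.toFun (k.invFun (y0 t0 b))) := by rw [h4]
      _ = k.invFun (y0 t0 b) := h'.left_inv h5
  -- a crossing point on an arc
  have harc : ∀ b x, x ∈ K.arc b → h'.toFun x ∈ frontier (A0.at t0) →
      b ∈ P0 ∧ x = k.invFun (y0 t0 b) := by
    intro b x hx hxf
    have hb : b ∈ P0 := by
      by_contra hb
      exact Set.disjoint_left.1 (hcr'.off b hb) (mem_image_of_mem _ hx) hxf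
    refine ⟨hb, ?_⟩
    have h1 : h'.toFun x ∈ ({y0 t0 b} : Set V) := by
      rw [← hcr'.on b hb]; exact ⟨mem_image_of_mem _ hx, hxf⟩
    have h2 : h'.toFun x = y0 t0 b := h1
    rw [← hinv b hb, ← h2, h'.left_inv (cx2_subset K (cx1_subset K (arc_sub_cx1 K b hx)))]
  have hfr : ∀ z, z ∈ frontier (A0.at t0) ↔ bg A0 z = t0 := fun z =>
    (eq_iff_mem_frontier_at hA0g ht0pos).symm
  have hmem : ∀ j, ∀ x ∈ K.tile j, h'.toFun x ∈ frontier (A0.at t0) → x ∈ ⋃ j, α j := by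
    intro j x hx hxf
    rw [← hαeq]
    exact ⟨mem_iUnion.2 ⟨j, hx⟩, (hfr _).1 hxf⟩
  refine ⟨h', t, t0, ht, ht0, fun b x hx => ?_, fun x hx => (h'Z x hx).trans (hkZ x hx),
    fun σ hσ => ?_, fun j hj => ?_, fun j b b' hbb hj => ?_, fun j c hjc z hz => ?_⟩
  · exact (h'1 x (arc_sub_cx1 K b hx)).trans (hk1 x (arc_sub_cx1 K b hx))
  · rintro _ ⟨x, hx, rfl⟩
    exact h'D σ hσ x hx
  · -- uncrossed faces
    rw [Set.disjoint_left]
    rintro _ ⟨x, hx, rfl⟩ hxf
    obtain ⟨j', hj'⟩ := mem_iUnion.1 (hmem j x hx hxf)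
    by_cases hjj : j = j'
    · subst hjj
      rw [hα.empty j hj] at hj'; exact hj'
    · obtain ⟨b, hb, hxb⟩ := mem_arc_of_mem_tile K hjj hx (hα.sub j' hj')
      have : b ∈ {b | inc b j ∧ b ∈ P0} := ⟨hb, (harc b x hxb hxf).1⟩
      rw [hj] at this; exact this
  · -- crossed faces
    have hbP : b ∈ P0 ∧ b' ∈ P0 := by
      have h1 : b ∈ {b | inc b j ∧ b ∈ P0} := by rw [hj]; exact Or.inl rfl
      have h2 : b' ∈ {b | inc b j ∧ b ∈ P0} := by rw [hj]; exact Or.inr rfl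
      exact ⟨h1.2, h2.2⟩
    have hαj := hα.arc j b b' hbb hj
    have hset : h'.toFun '' K.tile j ∩ frontier (A0.at t0) = h'.toFun '' α j := by
      ext z
      constructor
      · rintro ⟨⟨x, hx, rfl⟩, hxf⟩
        obtain ⟨j', hj'⟩ := mem_iUnion.1 (hmem j x hx hxf)
        by_cases hjj : j = j'
        · subst hjj; exact mem_image_of_mem _ hj'
        · obtain ⟨b2, hb2, hxb⟩ := mem_arc_of_mem_tile K hjj hx (hα.sub j' hj')
          obtain ⟨h1, h2⟩ := harc b2 x hxb hxf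
          have h3 : b2 ∈ {b | inc b j ∧ b ∈ P0} := ⟨hb2, h1⟩
          rw [hj] at h3
          refine mem_image_of_mem _ (hαj.1.1 ?_)
          rcases h3 with h3 | h3
          · rw [h2, h3]; exact Or.inl rfl
          · have h3' : b2 = b' := h3
            rw [h2, h3']; exact Or.inr rfl
      · rintro ⟨x, hx, rfl⟩
        have h1 : x ∈ {x | x ∈ cx2 K ∧ bg A0 (h'.toFun x) = t0} := by
          rw [hαeq]; exact mem_iUnion.2 ⟨j, hx⟩
        exact ⟨mem_image_of_mem _ (hα.sub j hx), (hfr _).2 h1.2⟩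
    rw [hset]
    have hαΩ : α j ⊆ Ω := (hα.sub j).trans ((subset_iUnion _ j).trans (cx2_subset K))
    have h4 := hαj.1.image h' hαΩ
    have h5 : ∀ b ∈ P0, h'.toFun (k.invFun (y0 t0 b)) = y0 t0 b := by
      intro b hb
      obtain ⟨h1, h2, -, h3⟩ := crossing_point K hA0sub hA0cl (hcrk t0 ht0) hb
      rw [h'1 _ (arc_sub_cx1 K b h1), h3]
    rwa [image_pair, h5 b hbP.1, h5 b' hbP.2] at h4
  · -- both sides
    obtain ⟨⟨x, hx, rfl⟩, hxf⟩ := hz
    have hxΓ := hmem j x hx.1 hxf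
    have hxk : h'.toFun x = k.toFun x := hαev' x hxΓ
    have hxt : bg A0 (k.toFun x) = t0 := by rw [← hxk]; exact (hfr _).1 hxf
    have hext : ∀ U ∈ 𝓝 x, (∃ z ∈ U ∩ K.tile j, bg A0 (h'.toFun z) < t0) ∧
        ∃ z ∈ U ∩ K.tile j, t0 < bg A0 (h'.toFun z) := by
      intro U hU
      obtain ⟨⟨z1, hz1, h1⟩, z2, hz2, h2⟩ := hα.ext j x hx hxt
        (U ∩ {z | z ∈ cx2 K → h'.toFun z = k.toFun z}) (inter_mem hU (hαev x hxΓ))
      refine ⟨⟨z1, ⟨hz1.1.1, hz1.2⟩, ?_⟩, z2, ⟨hz2.1.1, hz2.2⟩, ?_⟩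
      · have := hz1.1.2 (mem_iUnion.2 ⟨j, hz1.2⟩)
        rw [this]; exact h1
      · have := hz2.1.2 (mem_iUnion.2 ⟨j, hz2.2⟩)
        rw [this]; exact h2
    have hcl := mem_closure_of_not_extremum K (u := fun z => bg A0 (h'.toFun z))
      ((continuous_bg hA0g).comp_continuousOn h'.cont) hjc hx.1 hext
    have hsubΩ : (K.cell c \ cbd K c) ∩ {z | bg A0 (h'.toFun z) = t0} ⊆ Ω := fun z hz =>
      cell_subset K c hz.1.1
    have hxΩ : x ∈ Ω := cx2_subset K (mem_iUnion.2 ⟨j, hx.1⟩)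
    have h6 := ((h'.cont x hxΩ).mono hsubΩ).mem_closure_image hcl
    refine closure_mono ?_ h6
    rintro _ ⟨z, ⟨hz1, hz2⟩, rfl⟩
    refine ⟨mem_image_of_mem _ ⟨hz1.1, ?_⟩, (hfr _).2 hz2⟩
    exact cell_diff_cx2 K hz1

end P073.GB3
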