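import Vale.Agent.P073.GB3.Circ4
import Vale.Agent.P073.GB3.Body

/-!
# P073, block GB2: exact form of the level lemma, corrected form of `SpecClean`
-/

open Set Metric Topology Filter

namespace P073.GB3

open P073 P073.GB73 P073.PR720
open Vale.Agent.P073.St (V)

variable {Vx B J I : Type}

/-- the net of the complex -/
def cx1 {e0 e1 : B → Vx} {inc : B → J → Prop} {qC : J → I → Prop} {Ω : Set V}
    (K : Cx3 e0 e1 inc qC Ω) : Set V := ⋃ b, K.arc b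

/-- the two-skeleton of the complex -/
def cx2 {e0 e1 : B → Vx} {inc : B → J → Prop} {qC : J → I → Prop} {Ω : Set V}
    (K : Cx3 e0 e1 inc qC Ω) : Set V := ⋃ j, K.tile j

/-- the boundary of the cell `c` -/
def cbd {e0 e1 : B → Vx} {inc : B → J → Prop} {qC : J → I → Prop} {Ω : Set V}
    (K : Cx3 e0 e1 inc qC Ω) (c : I) : Set V := ⋃ s ∈ {s | qC s c}, K.tile s

/-- the traces of the level `t` in the faces: `α j` is empty for uncrossed faces, an arc between the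
two crossing points for crossed faces; no point of the level in an open face is a local extremum. -/
structure LevArcs {e0 e1 : B → Vx} {inc : B → J → Prop} {qC : J → I → Prop} {Ω Λ : Set V}
    (K : Cx3 e0 e1 inc qC Ω) (k : ConHomeo Ω Λ) (A : Body) (P : Set B) (y : B → V) (t : ℝ)
    (α : J → Set V) : Prop where
  sub : ∀ j, α j ⊆ K.tile j
  empty : ∀ j, {b | inc b j ∧ b ∈ P} = ∅ → α j = ∅
  arc : ∀ j b b', b ≠ b' → {b | inc b j ∧ b ∈ P} = {b, b'} →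
    ConBall 1 (α j) {k.invFun (y b), k.invFun (y b')} ∧
    α j ∩ K.toCx2.bd j = {k.invFun (y b), k.invFun (y b')}
  ext : ∀ j, ∀ x ∈ K.tile j \ K.toCx2.bd j, bg A (k.toFun x) = t → ∀ U ∈ 𝓝 x,
    (∃ z ∈ U ∩ K.tile j, bg A (k.toFun z) < t) ∧ ∃ z ∈ U ∩ K.tile j, t < bg A (k.toFun z)

/-- **(c) LEVELS** (helper644) -/
def SpecLevels : Prop :=
  ∀ (Vx B J I : Type) (e0 e1 : B → Vx) (inc : B → J → Prop) (qC : J → I → Prop) (Ω Λ : Set V)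
    (K : Cx3 e0 e1 inc qC Ω) (k : ConHomeo Ω Λ), IsOpen Ω → IsOpen Λ →
  ∀ (A : Body) (P : Set B) (y : ℝ → B → V), A.Good Λ → Pat inc P →
    (∀ t ∈ A.T, Crosses K.toGraph k.toFun (A.at t) P (y t)) →
    ∃ T' ⊆ A.T, ¬ T'.Countable ∧ ∃ (α : ℝ → J → Set V) (S : ℝ → Set (Set V)), ∀ t ∈ T',
      LevArcs K k A P (y t) t (α t) ∧
      Lev (cx1 K) (cx2 K) K.tile K.toCx2.bd (fun x => bg A (k.toFun x)) t (⋃ j, α t j) (S t)

/-- **(GB2)**, corrected: the protected set `Z` is given before `h'`; the bodies are conical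
balls. -/
def SpecClean' : Prop :=
  ∀ (Vx B J I : Type) (e0 e1 : B → Vx) (inc : B → J → Prop) (qC : J → I → Prop) (Ω Λ : Set V)
    (K : Cx3 e0 e1 inc qC Ω) (h : ConHomeo Ω Λ), IsOpen Ω → IsOpen Λ →
  ∀ (F : Finset J) (A : J → Body) (P : J → Set B) (y : J → ℝ → B → V)
    (A0 : Body) (P0 : Set B) (y0 : ℝ → B → V),
    (∀ σ ∈ F, (A σ).Good Λ) → A0.Good Λ →
    (∀ σ ∈ F, ∀ t ∈ (A σ).T, ConBall 3 ((A σ).at t) (frontier ((A σ).at t))) →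
    (∀ t ∈ A0.T, ConBall 3 (A0.at t) (frontier (A0.at t))) →
    (∀ σ ∈ F, Pat inc (P σ)) → Pat inc P0 →
    (∀ σ ∈ F, ∀ t ∈ (A σ).T, Crosses K.toGraph h.toFun ((A σ).at t) (P σ) (y σ t)) →
    (∀ t ∈ A0.T, Crosses K.toGraph h.toFun (A0.at t) P0 (y0 t)) →
    (∀ σ ∈ F, ∀ t ∈ (A σ).T, h.toFun '' (K.toCx2.bd σ) ⊆ interior ((A σ).at t)) →
    (∀ σ ∈ F, ∀ τ ∈ F, σ ≠ τ → ∀ t ∈ (A σ).T, ∀ s ∈ (A τ).T,
      IsPreconnected (frontier ((A τ).at s) \ interior ((A σ).at t)) ∧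
      ∃ b ∈ P τ, y τ s b ∉ interior ((A σ).at t)) →
    (∀ σ ∈ F, ∀ t ∈ (A σ).T, ∀ s ∈ A0.T,
      IsPreconnected (frontier (A0.at s) \ interior ((A σ).at t)) ∧
      ∃ b ∈ P0, y0 s b ∉ interior ((A σ).at t)) →
    ∀ Z, Prot K Z → (∀ σ ∈ F, ∀ s ∈ (A σ).T, Disjoint (h.toFun '' Z) ((A σ).at s)) →
        (∀ s ∈ A0.T, Disjoint (h.toFun '' Z) (A0.at s)) →
    ∃ (h' : ConHomeo Ω Λ) (t : J → ℝ) (t0 : ℝ),
      (∀ σ ∈ F, t σ ∈ (A σ).T) ∧ t0 ∈ A0.T ∧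
      (∀ b, EqOn h'.toFun h.toFun (K.arc b)) ∧
      EqOn h'.toFun h.toFun Z ∧
      (∀ σ ∈ F, h'.toFun '' K.tile σ ⊆ interior ((A σ).at (t σ))) ∧
      (∀ j, {b | inc b j ∧ b ∈ P0} = ∅ → Disjoint (h'.toFun '' K.tile j) (frontier (A0.at t0))) ∧
      (∀ j b b', b ≠ b' → {b | inc b j ∧ b ∈ P0} = {b, b'} →
        ConBall 1 (h'.toFun '' K.tile j ∩ frontier (A0.at t0)) {y0 t0 b, y0 t0 b'}) ∧
      (∀ j c, qC j c → ∀ z ∈ h'.toFun '' (K.tile j \ K.toCx2.bd j) ∩ frontier (A0.at t0),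
        z ∈ closure (h'.toFun '' (K.cell c \ ⋃ s, K.tile s) ∩ frontier (A0.at t0)))

end P073.GB3
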