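import Vale.Agent.P073.GB3.Levels2
import Vale.Agent.P073.GB3.CleanSpec

/-!
# P073, block GB2: the level lemma `SpecLevels`
-/

open Set Metric Topology Filter

namespace P073.GB3

open P073 P073.GB73 P073.PR720
open Vale.Agent.P073.St (V)

theorem specLevels : SpecLevels := by
  classical
  intro Vx B J I e0 e1 inc qC Ω Λ K k hΩ hΛ A P y hA hP hcr
  obtain ⟨T', hT', hT'u, H⟩ := exists_levels K k hA hP (Subset.refl A.T) hA.unc hcr
  have H' : ∀ t : ℝ, ∃ (L : Type) (κ : L → Set V) (ι : L → J) (α : J → Set V), t ∈ T' →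
      NetLevel K (fun x => bg A (k.toFun x)) t P (fun b => k.invFun (y t b)) L κ ι α := by
    intro t
    by_cases ht : t ∈ T'
    · obtain ⟨L, κ, ι, α, h⟩ := H t ht
      exact ⟨L, κ, ι, α, fun _ => h⟩
    · exact ⟨Empty, fun _ => ∅, fun l => l.elim, fun _ => ∅, fun h => absurd h ht⟩
  choose L κ ι α HN using H'
  refine ⟨T', hT', hT'u, α, fun t => range (κ t), fun t ht => ?_⟩
  have N := HN t ht
  constructor
  · exact
      { sub := N.sub
        empty := N.off
        arc := by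
          intro j b b' hbb hj
          refine ⟨N.arc j b b' hbb hj, ?_⟩
          have h1 := N.arc j b b' hbb hj
          rw [N.bd j]
          ext x
          constructor
          · rintro ⟨hx, hxt⟩
            obtain ⟨c, hc, hxc⟩ := mem_iUnion₂.1 hx
            have hcP : c ∈ P := by
              by_contra h; exact N.off_pt c h x hxc hxt
            have hc' : c ∈ ({b, b'} : Set B) := hj ▸ ⟨hc, hcP⟩
            have hx1 : x ∈ ({k.invFun (y t c)} : Set V) := by
              rw [← N.pt c hcP]; exact ⟨hxc, hxt⟩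
            have hx2 : x = k.invFun (y t c) := hx1
            rcases hc' with h | h
            · left; rw [hx2, h]
            · right
              have : c = b' := h
              rw [mem_singleton_iff, hx2, this]
          · have hmem : ∀ c ∈ ({b, b'} : Set B), k.invFun (y t c) ∈
                {x | x ∈ K.toCx2.bd j ∧ bg A (k.toFun x) = t} := by
              intro c hc
              rw [← hj] at hc
              have h2 : k.invFun (y t c) ∈ {x | x ∈ K.arc c ∧ bg A (k.toFun x) = t} := by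
                rw [N.pt c hc.2]; exact rfl
              exact ⟨mem_iUnion₂.2 ⟨c, hc.1, h2.1⟩, h2.2⟩
            rintro (hx | hx)
            · rw [hx]; exact hmem b (Or.inl rfl)
            · have hx' : x = k.invFun (y t b') := hx
              rw [hx']; exact hmem b' (Or.inr rfl)
        ext := by
          intro j x hx hxt U hU
          obtain ⟨h1, h2⟩ := N.cross j x hx hxt
          have hU' : ∀ᶠ z in 𝓝[K.tile j \ K.toCx2.bd j] x, z ∈ U ∩ K.tile j := by
            filter_upwards [mem_nhdsWithin_of_mem_nhds hU, self_mem_nhdsWithin] with z h1 h2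
            exact ⟨h1, h2.1⟩
          constructor
          · obtain ⟨z, hz1, hz2⟩ := (h1.and_eventually hU').exists
            exact ⟨z, hz2, hz1⟩
          · obtain ⟨z, hz1, hz2⟩ := (h2.and_eventually hU').exists
            exact ⟨z, hz2, hz1⟩ }
  · exact
      { eq := by rw [sUnion_range]; exact N.eq
        conn := N.conn
        ne := by
          obtain ⟨b, hb⟩ := hP.ne
          have h2 : k.invFun (y t b) ∈ {x | x ∈ K.arc b ∧ bg A (k.toFun x) = t} := by
            rw [N.pt b hb]; exact rfl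
          exact ⟨_, N.mem b hb, mem_iUnion.2 ⟨b, h2.1⟩⟩
        fin := by
          have := N.fin
          exact finite_range _
        circle := by
          rintro _ ⟨l, rfl⟩; exact N.circle l
        inFace := by
          rintro _ ⟨l, rfl⟩; exact ⟨ι t l, N.inTile l⟩
        disj := by
          rintro _ ⟨l, rfl⟩ _ ⟨l', rfl⟩ hne
          exact N.disj l l' fun h => hne (by rw [h])
        disjΓ := by
          rintro _ ⟨l, rfl⟩
          rw [Set.disjoint_left]
          intro x hx hxl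
          obtain ⟨j, hj⟩ := mem_iUnion.1 hx
          exact Set.disjoint_left.1 (N.disjα l j) hxl hj }

/-! ## Crossing into the cells -/

/-- In a conical ball, near a point of the boundary at which `v` takes values on both sides of `t`
on the boundary, the level `{v = t}` meets the interior. -/
theorem mem_closure_level_of_ball {C S : Set V} (hC : ConBall 3 C S) {v : V → ℝ}
    (hv : ContinuousOn v C) {x : V} {t : ℝ} (hx : x ∈ S)
    (hcr : ∀ U ∈ 𝓝 x, (∃ z ∈ U ∩ S, v z < t) ∧ ∃ z ∈ U ∩ S, t < v z) :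
    x ∈ closure {z | z ∈ C \ S ∧ v z = t} := by
  obtain ⟨φ, hφ⟩ := hC.eq_preimage
  have hSC : S ⊆ C := hC.1
  have hfS : ∀ z ∈ S, φ.toFun z ∈ sphere (0 : Fin 3 → ℝ) 1 := by
    intro z hz
    rw [← hφ] at hz
    obtain ⟨w, hw, rfl⟩ := hz
    have : φ.toFun (φ.invFun w) = w := φ.right_inv (sphere_subset_closedBall hw)
    rw [this]; exact hw
  have hiS : ∀ w ∈ ball (0 : Fin 3 → ℝ) 1, φ.invFun w ∈ C \ S := by
    intro w hw
    refine ⟨φ.mapsTo_inv (ball_subset_closedBall hw), fun h => ?_⟩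
    have := hfS _ h
    rw [φ.right_inv (ball_subset_closedBall hw)] at this
    exact absurd (mem_sphere_zero_iff_norm.1 this) (mem_ball_zero_iff.1 hw).ne
  rw [mem_closure_iff_nhds]
  intro U hU
  -- a small ball in the model
  have h1 : ∀ᶠ w in 𝓝[closedBall (0 : Fin 3 → ℝ) 1] (φ.toFun x), φ.invFun w ∈ U := by
    have hc : ContinuousWithinAt φ.invFun (closedBall 0 1) (φ.toFun x) :=
      φ.cont_inv _ (φ.mapsTo (hSC hx))
    have : U ∈ 𝓝 (φ.invFun (φ.toFun x)) := by rw [φ.left_inv (hSC hx)]; exact hU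
    exact hc this
  rw [eventually_nhdsWithin_iff] at h1
  obtain ⟨ρ, hρ, hb⟩ := Metric.nhds_basis_ball.mem_iff.1 h1
  -- points on the boundary
  have h2 : ∀ᶠ z in 𝓝[C] x, φ.toFun z ∈ ball (φ.toFun x) ρ :=
    φ.cont x (hSC hx) (ball_mem_nhds _ hρ)
  rw [eventually_nhdsWithin_iff] at h2
  obtain ⟨⟨z1, ⟨hz1U, hz1S⟩, hz1⟩, z2, ⟨hz2U, hz2S⟩, hz2⟩ := hcr _ h2
  have hz1b := hz1U (hSC hz1S)
  have hz2b := hz2U (hSC hz2S)
  -- push them inside
  have hvφ : ContinuousOn (v ∘ φ.invFun) (closedBall 0 1) := hv.comp φ.cont_inv φ.mapsTo_inv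
  have push : ∀ z ∈ S, φ.toFun z ∈ ball (φ.toFun x) ρ → ∀ O : Set ℝ, IsOpen O → v z ∈ O →
      ∃ w ∈ ball (0 : Fin 3 → ℝ) 1 ∩ ball (φ.toFun x) ρ, v (φ.invFun w) ∈ O := by
    intro z hz hzb O hO hvO
    have hcl : φ.toFun z ∈ closure (ball (0 : Fin 3 → ℝ) 1) := by
      rw [closure_ball _ one_ne_zero]; exact φ.mapsTo (hSC hz)
    have hc : ContinuousWithinAt (v ∘ φ.invFun) (ball 0 1) (φ.toFun z) :=
      (hvφ _ (φ.mapsTo (hSC hz))).mono ball_subset_closedBall
    have h3 : (v ∘ φ.invFun) (φ.toFun z) ∈ O := by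
      show v (φ.invFun (φ.toFun z)) ∈ O
      rw [φ.left_inv (hSC hz)]; exact hvO
    have h4 : ∀ᶠ w in 𝓝[ball (0 : Fin 3 → ℝ) 1] (φ.toFun z), (v ∘ φ.invFun) w ∈ O :=
      hc (hO.mem_nhds h3)
    have h5 : ∀ᶠ w in 𝓝[ball (0 : Fin 3 → ℝ) 1] (φ.toFun z), w ∈ ball (φ.toFun x) ρ :=
      mem_nhdsWithin_of_mem_nhds (isOpen_ball.mem_nhds hzb)
    have h6 : ∀ᶠ w in 𝓝[ball (0 : Fin 3 → ℝ) 1] (φ.toFun z), w ∈ ball (0 : Fin 3 → ℝ) 1 :=
      self_mem_nhdsWithin
    have : (𝓝[ball (0 : Fin 3 → ℝ) 1] (φ.toFun z)).NeBot := mem_closure_iff_nhdsWithin_neBot.1 hcl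
    obtain ⟨w, hw1, hw2, hw3⟩ := (h4.and (h5.and h6)).exists
    exact ⟨w, ⟨hw3, hw2⟩, hw1⟩
  obtain ⟨w1, hw1, hw1v⟩ := push z1 hz1S hz1b (Iio t) isOpen_Iio hz1
  obtain ⟨w2, hw2, hw2v⟩ := push z2 hz2S hz2b (Ioi t) isOpen_Ioi hz2
  have hconv : IsPreconnected (ball (0 : Fin 3 → ℝ) 1 ∩ ball (φ.toFun x) ρ) :=
    ((convex_ball _ _).inter (convex_ball _ _)).isPreconnected
  have hcont : ContinuousOn (v ∘ φ.invFun) (ball (0 : Fin 3 → ℝ) 1 ∩ ball (φ.toFun x) ρ) :=
    hvφ.mono (inter_subset_left.trans ball_subset_closedBall)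
  obtain ⟨w, hw, hwt⟩ := hconv.intermediate_value hw1 hw2 hcont
    (show t ∈ Icc _ _ from ⟨le_of_lt hw1v, le_of_lt hw2v⟩)
  exact ⟨φ.invFun w, hb hw.2 (ball_subset_closedBall hw.1), hiS w hw.1, hwt⟩

end P073.GB3
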