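import Vale.Agent.P073.GB3.Clean
import Vale.Agent.P073.GB3.Levels3
import Vale.Agent.P073.H894.SpecPush
import Vale.Agent.P073.H339.SphereJS

/-!
# P073, block GB2, final form: `GB73.SpecClean` from the theorem of Alexander
-/

open Set Metric Topology Filter

namespace P073.GB3

open P073 P073.GB73 P073.PR720
open Vale.Agent.P073.St (V)

/-- **(GB2)** cleaning, modulo the theorem of Alexander -/
theorem specClean_of_alex (hAl : SpecAlex) : GB73.SpecClean := by
  intro Vx B J I e0 e1 inc qC Ω Λ K h hΩ hΛ F A P y A0 P0 y0 hAg hA0g hPat hPat0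
    hCr hCr0 hbd hsep hsep0 Z hZ hZA hZA0
  exact specClean hAl H339.jordanSch_sphere specPush_GB3 specLevels Vx B J I e0 e1 inc qC Ω Λ K h
    hΩ hΛ F A P y A0 P0 y0 hAg hA0g (fun σ hσ => (hAg σ hσ).ball) hA0g.ball hPat hPat0
    hCr hCr0 hbd hsep hsep0 Z hZ hZA hZA0

end P073.GB3
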