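import Vale.Agent.P073.GB3.CleanSpec

/-!
# P073, block GB2: a `Cx3` complex is a context for CIRC; sides of a face at a level
-/

open Set Metric Topology Filter

namespace P073.GB3

open P073 P073.GB73 P073.PR720
open Vale.Agent.P073.St (V)

section general

variable {E : Type*} [NormedAddCommGroup E] [NormedSpace ℝ E]

/-- a locally finite union of sets which are conical at `x` is conical at `x` -/
theorem locConeAt_iUnion_of_LF {ι : Type*} {A : ι → Set E} {W : Set E} (h : LF A W)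
    (hA : ∀ i, LocCone (A i)) {x : E} (hx : x ∈ W) : LocConeAt (⋃ i, A i) x := by
  obtain ⟨U, hU, hfin⟩ := h x hx
  have : Finite {i | (A i ∩ U).Nonempty} := hfin
  have h1 : LocConeAt (⋃ i : {i | (A i ∩ U).Nonempty}, A i) x :=
    LocConeAt.iUnion_finite fun i => hA i.1 x
  rw [locConeAt_congr (Y := ⋃ i : {i | (A i ∩ U).Nonempty}, A i)]
  · exact h1
  · filter_upwards [hU] with y hy
    constructor
    · intro h2
      obtain ⟨i, hi⟩ := mem_iUnion.1 h2
      exact mem_iUnion.2 ⟨⟨i, ⟨y, hi, hy⟩⟩, hi⟩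
    · intro h2
      obtain ⟨i, hi⟩ := mem_iUnion.1 h2
      exact mem_iUnion.2 ⟨i.1, hi⟩

omit [NormedSpace ℝ E] in
/-- `LF` for the members different from `i₀` -/
theorem LF.closed_ne {ι : Type*} {A : ι → Set E} {W : Set E} (h : LF A W)
    (hA : ∀ i, IsClosed (A i)) {i₀ : ι} {z : E} (hz : z ∈ W)
    (hcl : z ∈ closure (⋃ i : {i // i ≠ i₀}, A i)) : ∃ i, i ≠ i₀ ∧ z ∈ A i := by
  have h1 : LF (fun i : {i // i ≠ i₀} => A i.1) W := by
    intro y hy
    obtain ⟨U, hU, hfin⟩ := h y hy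
    refine ⟨U, hU, ?_⟩
    exact Set.Finite.preimage (f := (Subtype.val : {i // i ≠ i₀} → ι)) Subtype.val_injective.injOn
      hfin
  obtain ⟨i, hi⟩ := mem_iUnion.1 (h1.closed (fun i => hA i.1) hz hcl)
  exact ⟨i.1, i.2, hi⟩

end general

variable {Vx B J I : Type} {e0 e1 : B → Vx} {inc : B → J → Prop} {qC : J → I → Prop} {Ω : Set V}

section facts

variable (K : Cx3 e0 e1 inc qC Ω)

include K in
theorem exists_cell (j : J) : ∃ c, qC j c := by
  obtain ⟨c, d, -, h⟩ := K.two j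
  exact ⟨c, (h c).2 (Or.inl rfl)⟩

theorem tile_subset_cell {j : J} {c : I} (h : qC j c) : K.tile j ⊆ K.cell c :=
  (subset_biUnion_of_mem (u := fun s => K.tile s) (show j ∈ {s | qC s c} from h)).trans
    (K.cball c).1

theorem cell_subset (c : I) : K.cell c ⊆ Ω := by
  have h := subset_iUnion K.cell c
  rwa [K.cover] at h

theorem lf_tile : LF K.tile Ω :=
  K.clf.of_cover (fun j c => qC j c) (fun j => by
    obtain ⟨c, hc⟩ := exists_cell K j
    exact ⟨c, hc, tile_subset_cell K hc⟩) (fun c => K.fin_qC c)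

theorem tile_closed (j : J) : IsClosed (K.tile j) := (K.tball j).isClosed

theorem cx2_subset : cx2 K ⊆ Ω := by
  refine iUnion_subset fun j => ?_
  obtain ⟨c, hc⟩ := exists_cell K j
  exact (tile_subset_cell K hc).trans (cell_subset K c)

theorem cx1_subset : cx1 K ⊆ cx2 K := by
  refine iUnion_subset fun b => ?_
  obtain ⟨j, hj⟩ := K.arc_tile b
  exact (K.toCx2.arc_subset_tile hj).trans (subset_iUnion _ j)

theorem not_arc_of_open {j : J} {x : V} (hx : x ∈ K.tile j \ K.toCx2.bd j) : x ∉ cx1 K := by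
  intro h
  obtain ⟨b, hb⟩ := mem_iUnion.1 h
  exact hx.2 (K.tile_arc j b ⟨hx.1, hb⟩)

theorem tile_unique {j j' : J} {x : V} (hx : x ∈ K.tile j \ K.toCx2.bd j) (hx' : x ∈ K.tile j') :
    j' = j := by
  by_contra hne
  exact not_arc_of_open K hx (K.tile_tile j j' (Ne.symm hne) ⟨hx.1, hx'⟩)

theorem cell_diff_cx2 {c : I} {x : V} (hx : x ∈ K.cell c \ cbd K c) : x ∉ cx2 K := by
  intro h
  obtain ⟨j, hj⟩ := mem_iUnion.1 h
  exact hx.2 (K.cell_tile c j ⟨hx.1, hj⟩)

theorem cbd_subset (c : I) : cbd K c ⊆ cx2 K := by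
  intro x hx
  obtain ⟨s, -, hs⟩ := mem_iUnion₂.1 hx
  exact mem_iUnion.2 ⟨s, hs⟩

theorem isOpen_cell_diff (hΩ : IsOpen Ω) (c : I) : IsOpen (K.cell c \ cbd K c) := by
  rw [isOpen_iff_mem_nhds]
  intro x hx
  have hx2 := cell_diff_cx2 K hx
  have hxΩ := cell_subset K c hx.1
  -- `x` is not in the closure of the union of the other cells
  have h1 : x ∉ closure (⋃ d : {d // d ≠ c}, K.cell d) := by
    intro h
    obtain ⟨d, hd, hxd⟩ := LF.closed_ne K.clf (fun d => (K.cball d).isClosed) hxΩ h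
    exact hx2 (K.cell_cell c d (Ne.symm hd) ⟨hx.1, hxd⟩)
  have h2 : x ∉ cbd K c := hx.2
  have h3 : IsClosed (cbd K c) := (K.cball c).isCompact_bdry.isClosed
  filter_upwards [hΩ.mem_nhds hxΩ, isClosed_closure.isOpen_compl.mem_nhds h1,
    h3.isOpen_compl.mem_nhds h2] with y hyΩ hy1 hy2
  refine ⟨?_, hy2⟩
  have hyΩ' : y ∈ ⋃ c, K.cell c := by rw [K.cover]; exact hyΩ
  obtain ⟨d, hd⟩ := mem_iUnion.1 hyΩ'
  by_cases hdc : d = c
  · rw [← hdc]; exact hd
  · exact absurd (subset_closure (mem_iUnion.2 ⟨⟨d, hdc⟩, hd⟩)) hy1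

theorem closed_cx2 {x : V} (hx : x ∈ Ω) (h : x ∈ closure (cx2 K)) : x ∈ cx2 K :=
  (lf_tile K).closed (tile_closed K) hx h

/-- the context of a complex with protected set -/
theorem ctx_of_cx3 (hΩ : IsOpen Ω) {Z : Set V} (hZ : Prot K Z) :
    Ctx Ω (cx1 K) (cx2 K) Z K.tile K.toCx2.bd K.cell (cbd K) where
  openΩ := hΩ
  closed2 := fun x hx h => closed_cx2 K hx h
  cone2 := fun x hx => locConeAt_iUnion_of_LF (lf_tile K) (fun j => (K.tball j).locCone) hx
  sub := cx2_subset K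
  sub1 := cx1_subset K
  disc := K.tball
  face := fun j => subset_iUnion _ j
  off1 := fun j => by
    rw [Set.disjoint_left]
    intro x hx
    exact not_arc_of_open K hx
  off2 := fun j j' hne => by
    rw [Set.disjoint_left]
    intro x hx hx'
    exact hne (tile_unique K hx hx').symm
  openFace := fun j x hx h => by
    have h1 : cx2 K \ K.tile j ⊆ ⋃ j' : {j' // j' ≠ j}, K.tile j' := by
      rintro y ⟨hy, hyj⟩
      obtain ⟨j', hj'⟩ := mem_iUnion.1 hy
      have : j' ≠ j := fun h => hyj (h ▸ hj')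
      exact mem_iUnion.2 ⟨⟨j', this⟩, hj'⟩
    have hxΩ : x ∈ Ω := cx2_subset K (mem_iUnion.2 ⟨j, hx.1⟩)
    obtain ⟨j', hne, hj'⟩ := LF.closed_ne (lf_tile K) (tile_closed K) hxΩ (closure_mono h1 h)
    exact hne (tile_unique K hx hj')
  ball := K.cball
  csub := cell_subset K
  copen := isOpen_cell_diff K hΩ
  cint := fun c => by
    rw [Set.disjoint_left]
    intro x hx
    exact cell_diff_cx2 K hx
  cbd := cbd_subset K
  cells := fun x hx _ => by
    have hx' : x ∈ ⋃ c, K.cell c := by rw [K.cover]; exact hx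
    exact mem_iUnion.1 hx'
  fc := fun j c h => by
    obtain ⟨x, hx, hxc⟩ := h
    obtain ⟨s, hs, hxs⟩ := mem_iUnion₂.1 (K.cell_tile c j ⟨hxc, hx.1⟩)
    have := tile_unique K hx hxs
    rw [this] at hs
    exact subset_biUnion_of_mem (u := fun s => K.tile s) hs
  Zclosed := hZ.closed
  Zface := hZ.tile
  Zcell := fun c z hz => by
    obtain ⟨S, h1, h2, h3, w, hw, hw'⟩ := hZ.cell c z hz
    refine ⟨S, h1, h2, h3, w, hw, ?_⟩
    obtain ⟨b, hb⟩ := mem_iUnion.1 hw'
    obtain ⟨j, hj⟩ := K.arc_tile b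
    exact K.cell_tile c j ⟨(h2 hw).2, K.toCx2.arc_subset_tile hj hb⟩

end facts

/-- **Both sides**: a point `x` of the open face `tile j` which is not a local extremum of the
function `u` on the face, and where `u = t`, is in the closure of `{u = t}` in the open cell. -/
theorem mem_closure_of_not_extremum (K : Cx3 e0 e1 inc qC Ω) {u : V → ℝ} (hu : ContinuousOn u Ω)
    {j : J} {c : I} (hjc : qC j c) {x : V} (hx : x ∈ K.tile j) {t : ℝ}
    (hext : ∀ U ∈ 𝓝 x, (∃ z ∈ U ∩ K.tile j, u z < t) ∧ ∃ z ∈ U ∩ K.tile j, t < u z) :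
    x ∈ closure ((K.cell c \ cbd K c) ∩ {z | u z = t}) := by
  rw [mem_closure_iff_nhds]
  intro N hN
  by_contra hcon
  rw [not_nonempty_iff_eq_empty] at hcon
  obtain ⟨hbc, φ, hφ⟩ := K.cball c
  have hxc : x ∈ K.cell c := tile_subset_cell K hjc hx
  have hucont : ContinuousOn (fun y => u (φ.invFun y)) (closedBall (0 : Fin 3 → ℝ) 1) :=
    hu.comp φ.cont_inv fun y hy => cell_subset K c (φ.mapsTo_inv hy)
  -- a small ball in the model
  obtain ⟨r, hr, hrN⟩ : ∃ r > 0, ∀ y ∈ ball (φ.toFun x) r ∩ closedBall (0 : Fin 3 → ℝ) 1,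
      φ.invFun y ∈ N := by
    have h1 : φ.invFun ⁻¹' N ∈ 𝓝[closedBall (0 : Fin 3 → ℝ) 1] (φ.toFun x) := by
      apply (φ.cont_inv _ (φ.mapsTo hxc)).preimage_mem_nhdsWithin
      rw [φ.left_inv hxc]; exact hN
    obtain ⟨r, hr, h2⟩ := Metric.mem_nhdsWithin_iff.1 h1
    exact ⟨r, hr, h2⟩
  set H : Set (Fin 3 → ℝ) := ball (φ.toFun x) r ∩ ball 0 1 with hH
  have hHpre : IsPreconnected H := ((convex_ball _ _).inter (convex_ball _ _)).isPreconnected
  have hHsub : H ⊆ closedBall (0 : Fin 3 → ℝ) 1 := fun y hy => ball_subset_closedBall hy.2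
  have hHne : ∀ y ∈ H, u (φ.invFun y) ≠ t := by
    intro y hy he
    have h1 : φ.invFun y ∈ N ∩ ((K.cell c \ cbd K c) ∩ {z | u z = t}) := by
      refine ⟨hrN y ⟨hy.1, hHsub hy⟩, ⟨φ.mapsTo_inv (hHsub hy), fun hb => ?_⟩, he⟩
      have h2 : φ.toFun (φ.invFun y) ∈ φ.toFun '' (cbd K c) := mem_image_of_mem _ hb
      rw [φ.right_inv (hHsub hy)] at h2
      have h3 : φ.toFun '' (cbd K c) = sphere 0 1 := hφ
      rw [h3, mem_sphere_iff_norm, sub_zero] at h2
      have := hy.2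
      rw [mem_ball, dist_zero_right] at this
      exact this.ne h2
    rw [hcon] at h1
    exact h1
  have hcl : ball (φ.toFun x) r ∩ closedBall (0 : Fin 3 → ℝ) 1 ⊆ closure H := by
    rintro y ⟨hy1, hy2⟩
    rw [← closure_ball (0 : Fin 3 → ℝ) one_ne_zero] at hy2
    exact isOpen_ball.inter_closure ⟨hy1, hy2⟩
  -- the sign is constant
  have hsign : (∀ y ∈ H, u (φ.invFun y) < t) ∨ ∀ y ∈ H, t < u (φ.invFun y) := by
    by_contra hc
    push Not at hc
    obtain ⟨⟨y1, hy1, h1⟩, y2, hy2, h2⟩ := hc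
    have h3 := hHpre.image _ (hucont.mono hHsub)
    have h4 : t ∈ (fun y => u (φ.invFun y)) '' H :=
      h3.ordConnected.out (mem_image_of_mem _ hy2) (mem_image_of_mem _ hy1) ⟨h2, h1⟩
    obtain ⟨y, hy, h5⟩ := h4
    exact hHne y hy h5
  -- the neighbourhood in the domain
  obtain ⟨U, hU, hU'⟩ : ∃ U ∈ 𝓝 x, ∀ z ∈ U ∩ K.tile j, φ.toFun z ∈ closure H := by
    have h1 : φ.toFun ⁻¹' (ball (φ.toFun x) r) ∈ 𝓝[K.cell c] x :=
      (φ.cont x hxc).preimage_mem_nhdsWithin (ball_mem_nhds _ hr)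
    obtain ⟨U, hU, h2⟩ := mem_nhdsWithin_iff_exists_mem_nhds_inter.1 h1
    refine ⟨U, hU, fun z hz => hcl ⟨h2 ⟨hz.1, tile_subset_cell K hjc hz.2⟩,
      φ.mapsTo (tile_subset_cell K hjc hz.2)⟩⟩
  obtain ⟨⟨z1, hz1, h1⟩, z2, hz2, h2⟩ := hext U hU
  have hclc : closure H ⊆ closedBall (0 : Fin 3 → ℝ) 1 :=
    closure_minimal hHsub isClosed_closedBall
  rcases hsign with hs | hs
  · -- `u ≤ t` on the closure
    have h3 : u (φ.invFun (φ.toFun z2)) ≤ t := by
      have h4 : ContinuousWithinAt (fun y => u (φ.invFun y)) H (φ.toFun z2) :=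
        (hucont _ (hclc (hU' z2 hz2))).mono hHsub
      have h5 := h4.mem_closure (hU' z2 hz2) (t := Iic t) fun y hy => (hs y hy).le
      rwa [isClosed_Iic.closure_eq] at h5
    rw [φ.left_inv (tile_subset_cell K hjc hz2.2)] at h3
    linarith
  · have h3 : t ≤ u (φ.invFun (φ.toFun z1)) := by
      have h4 : ContinuousWithinAt (fun y => u (φ.invFun y)) H (φ.toFun z1) :=
        (hucont _ (hclc (hU' z1 hz1))).mono hHsub
      have h5 := h4.mem_closure (hU' z1 hz1) (t := Ici t) fun y hy => (hs y hy).le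
      rwa [isClosed_Ici.closure_eq] at h5
    rw [φ.left_inv (tile_subset_cell K hjc hz1.2)] at h3
    linarith

end P073.GB3
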