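import Vale.Agent.P073.GB3.Spec2
import Vale.Agent.P073.PR.Boxes

/-!
# P073, block GB3: the unit faces and cubes of the layer form a cell complex (`SpecLayerCx`)
-/

open Set Metric Topology Filter

namespace P073.GB3

open Vale.Agent.P073.St (V)

/-! ## Elementary facts -/

theorem exists_third : ∀ i j : Fin 3, i ≠ j →
    ∃ k, k ≠ i ∧ k ≠ j ∧ ∀ l : Fin 3, l = i ∨ l = j ∨ l = k := by decide

theorem exists_two : ∀ i : Fin 3, ∃ j k : Fin 3, j ≠ i ∧ k ≠ i ∧ j ≠ k ∧
    ∀ l : Fin 3, l = i ∨ l = j ∨ l = k := by decide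

theorem lt_norm_iff {x : V} {r : ℝ} (hr : 0 ≤ r) : r < ‖x‖ ↔ ∃ i, r < |x i| := by
  rw [← not_le, pi_norm_le_iff_of_nonneg hr]
  push Not
  rfl

theorem norm_lt_iff {x : V} {r : ℝ} (hr : 0 < r) : ‖x‖ < r ↔ ∀ i, |x i| < r := by
  rw [pi_norm_lt_iff hr]
  rfl

theorem norm_le_iff {x : V} {r : ℝ} (hr : 0 ≤ r) : ‖x‖ ≤ r ↔ ∀ i, |x i| ≤ r := by
  rw [pi_norm_le_iff_of_nonneg hr]
  rfl

/-- an integer is not strictly between two consecutive integers -/
theorem int_not_between {m n : ℤ} (h1 : (n:ℝ) < m) (h2 : (m:ℝ) < n + 1) : False := by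
  have h1' : n < m := by exact_mod_cast h1
  have h2' : m < n + 1 := by exact_mod_cast h2
  omega

theorem int_eq_of_between {m n : ℤ} {x : ℝ} (h1 : (n:ℝ) < x) (h2 : x < n + 1) (h3 : (m:ℝ) ≤ x)
    (h4 : x ≤ m + 1) : m = n := by
  have h5 : (m:ℝ) < n + 1 := lt_of_le_of_lt h3 h2
  have h6 : (n:ℝ) < m + 1 := lt_of_lt_of_le h1 h4
  have h5' : m < n + 1 := by exact_mod_cast h5
  have h6' : n < m + 1 := by exact_mod_cast h6
  omega

theorem abs_int_le_of_lt {n : ℤ} {N : ℕ} (h : |(n:ℝ)| < N + 1) : |n| ≤ N := by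
  have : |n| < (N:ℤ) + 1 := by
    have h' : ((|n| : ℤ) : ℝ) < ((N:ℤ) : ℝ) + 1 := by push_cast; exact h
    exact_mod_cast h'
  omega

theorem abs_cast_le {n : ℤ} {N : ℕ} (h : |n| ≤ N) : |(n:ℝ)| ≤ N := by
  have h' : ((|n| : ℤ) : ℝ) ≤ ((N:ℤ) : ℝ) := by exact_mod_cast h
  push_cast at h'
  exact h'

variable {N : ℕ}

/-! ## Finiteness -/

instance : Finite (CFace N) := by
  have hinj : Function.Injective (fun F : CFace N => (F.i, fun j => (⟨F.n j, by
      by_cases h : j = F.i
      · subst h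
        have := F.hi
        rw [abs_le] at this
        exact ⟨by linarith [this.1], this.2⟩
      · exact F.hn j h⟩ : Icc (-(N:ℤ) - 1) N))) := by
    intro F G h
    simp only [Prod.mk.injEq] at h
    obtain ⟨h1, h2⟩ := h
    have h3 : F.n = G.n := by
      funext j
      exact Subtype.ext_iff.1 (congrFun h2 j)
    cases F; cases G
    simp only at h1 h3
    subst h1; subst h3
    rfl
  exact Finite.of_injective _ hinj

instance : Finite (CCube N) := by
  have hinj : Function.Injective (fun F : CCube N => (fun j => (⟨F.n j, F.hn j⟩ :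
      Icc (-(N:ℤ) - 1) N))) := by
    intro F G h
    have h3 : F.n = G.n := by
      funext j
      exact Subtype.ext_iff.1 (congrFun h j)
    cases F; cases G
    simp only at h3
    subst h3
    rfl
  exact Finite.of_injective _ hinj

/-! ## Faces -/

theorem CFace.mem_closedBall (F : CFace N) {x : V} (hx : x ∈ F.set) :
    x ∈ closedBall (0 : V) (N + 1) := by
  rw [mem_closedBall_zero_iff, norm_le_iff (by positivity)]
  intro j
  by_cases h : j = F.i
  · rw [h, hx.1]
    have := abs_cast_le F.hi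
    linarith
  · obtain ⟨h1, h2⟩ := hx.2 j h
    obtain ⟨h3, h4⟩ := F.hn j h
    have h3' : (-(N:ℝ) - 1) ≤ F.n j := by exact_mod_cast h3
    have h4' : (F.n j : ℝ) ≤ N := by exact_mod_cast h4
    rw [abs_le]
    constructor <;> linarith

theorem CFace.mem_open_iff (F : CFace N) {x : V} : x ∈ F.set \ F.bd ↔
    x F.i = F.n F.i ∧ ∀ j, j ≠ F.i → (F.n j : ℝ) < x j ∧ x j < F.n j + 1 := by
  constructor
  · rintro ⟨hx, hb⟩
    refine ⟨hx.1, fun j hj => ⟨lt_of_le_of_ne (hx.2 j hj).1 fun h => hb ⟨hx, j, hj, Or.inl h.symm⟩,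
      lt_of_le_of_ne (hx.2 j hj).2 fun h => hb ⟨hx, j, hj, Or.inr h⟩⟩⟩
  · rintro ⟨h1, h2⟩
    refine ⟨⟨h1, fun j hj => ⟨(h2 j hj).1.le, (h2 j hj).2.le⟩⟩, ?_⟩
    rintro ⟨_, j, hj, h | h⟩
    · exact absurd h (h2 j hj).1.ne'
    · exact absurd h (h2 j hj).2.ne

theorem CFace.open_subset_layer (F : CFace N) : F.set \ F.bd ⊆ layer N := by
  intro x hx
  rw [F.mem_open_iff] at hx
  constructor
  · rw [lt_norm_iff (Nat.cast_nonneg N)]
    obtain ⟨j, hj, hc⟩ := F.hc
    obtain ⟨h1, h2⟩ := hx.2 j hj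
    refine ⟨j, ?_⟩
    rcases hc with hc | hc
    · rw [hc] at h1
      have : (N:ℝ) < x j := by exact_mod_cast h1
      exact lt_of_lt_of_le this (le_abs_self _)
    · rw [hc] at h2
      push_cast at h2
      have : x j < -(N:ℝ) := by linarith
      exact lt_of_lt_of_le (by linarith) (neg_le_abs _)
  · rw [norm_lt_iff (by positivity)]
    intro j
    by_cases h : j = F.i
    · rw [h, hx.1]
      have := abs_cast_le F.hi
      linarith
    · obtain ⟨h1, h2⟩ := hx.2 j h
      obtain ⟨h3, h4⟩ := F.hn j h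
      have h3' : (-(N:ℝ) - 1) ≤ F.n j := by exact_mod_cast h3
      have h4' : (F.n j : ℝ) ≤ N := by exact_mod_cast h4
      rw [abs_lt]
      constructor <;> linarith

/-- an open face meets only one face -/
theorem CFace.eq_of_mem_open {F G : CFace N} {x : V} (hx : x ∈ F.set \ F.bd) (hG : x ∈ G.set) :
    G = F := by
  rw [F.mem_open_iff] at hx
  have hi : G.i = F.i := by
    by_contra h
    have h1 := hx.2 G.i h
    rw [hG.1] at h1
    exact int_not_between h1.1 h1.2
  have hn : G.n = F.n := by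
    funext j
    by_cases h : j = F.i
    · have h1 := hG.1
      rw [hi, hx.1] at h1
      have h2 : F.n F.i = G.n F.i := by exact_mod_cast h1
      rw [h, h2]
    · have h1 := hx.2 j h
      have h2 := hG.2 j (by rw [hi]; exact h)
      exact int_eq_of_between h1.1 h1.2 h2.1 h2.2
  cases F; cases G
  simp only at hi hn
  subst hi; subst hn
  rfl

theorem CFace.isClosed (F : CFace N) : IsClosed F.set := by
  have : F.set = {x : V | x F.i = F.n F.i} ∩ ⋂ j : {j // j ≠ F.i},
      ({x : V | (F.n j : ℝ) ≤ x j} ∩ {x : V | x j ≤ F.n j + 1}) := by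
    ext x
    simp only [CFace.set, mem_ofPred_eq, mem_inter_iff, mem_iInter, Subtype.forall]
  rw [this]
  refine (isClosed_eq (by fun_prop) (by fun_prop)).inter (isClosed_iInter fun j => ?_)
  exact (isClosed_le (by fun_prop) (by fun_prop)).inter (isClosed_le (by fun_prop) (by fun_prop))

theorem CFace.isClosed_bd (F : CFace N) : IsClosed F.bd := by
  have : F.bd = F.set ∩ ⋃ j : {j // j ≠ F.i},
      ({x : V | x j = F.n j} ∪ {x : V | x j = F.n j + 1}) := by
    ext x
    simp only [CFace.bd, mem_ofPred_eq, mem_inter_iff, mem_iUnion, Subtype.exists, mem_union,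
      exists_prop]
  rw [this]
  refine F.isClosed.inter (isClosed_iUnion_of_finite fun j => ?_)
  exact (isClosed_eq (by fun_prop) (by fun_prop)).union (isClosed_eq (by fun_prop) (by fun_prop))

theorem isClosed_X2 : IsClosed (X2 N) := isClosed_iUnion_of_finite fun F : CFace N => F.isClosed

theorem isClosed_X1 : IsClosed (X1 N) := isClosed_iUnion_of_finite fun F : CFace N => F.isClosed_bd

theorem CFace.locCone (F : CFace N) : LocCone F.set := by
  have : F.set = Icc (fun j => (F.n j : ℝ))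
      (fun j => if j = F.i then (F.n j : ℝ) else (F.n j : ℝ) + 1) := by
    ext x
    constructor
    · rintro ⟨h1, h2⟩
      refine ⟨fun j => ?_, fun j => ?_⟩
      · by_cases h : j = F.i
        · rw [h, h1]
        · exact (h2 j h).1
      · by_cases h : j = F.i
        · simp only [if_pos h]; rw [h, h1]
        · simp only [if_neg h]; exact (h2 j h).2
    · rintro ⟨h1, h2⟩
      refine ⟨le_antisymm ?_ (h1 F.i), fun j hj => ⟨h1 j, ?_⟩⟩
      · have := h2 F.i
        simpa using this
      · have := h2 j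
        simp only [if_neg hj] at this
        exact this
  rw [this]
  exact locCone_Icc_pi _ _

/-- the face as the image of a square under `faceMap` -/
theorem CFace.eq_image (F : CFace N) {j k : Fin 3} (hj : j ≠ F.i) (hk : k ≠ F.i) (hjk : j ≠ k)
    (hall : ∀ l : Fin 3, l = F.i ∨ l = j ∨ l = k) :
    faceMap j k (fun l => (F.n l : ℝ)) '' Icc ![(F.n j : ℝ), F.n k] ![(F.n j : ℝ) + 1, F.n k + 1]
      = F.set ∧
    faceMap j k (fun l => (F.n l : ℝ)) '' frontier
      (Icc ![(F.n j : ℝ), F.n k] ![(F.n j : ℝ) + 1, F.n k + 1]) = F.bd := by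
  have h1 : faceMap j k (fun l => (F.n l : ℝ)) '' Icc ![(F.n j : ℝ), F.n k]
      ![(F.n j : ℝ) + 1, F.n k + 1] = F.set := by
    rw [faceMap_image_Icc hjk]
    ext x
    constructor
    · rintro ⟨a, b, c⟩
      refine ⟨c F.i hj.symm hk.symm, fun l hl => ?_⟩
      rcases hall l with h | h | h
      · exact absurd h hl
      · rw [h]; exact a
      · rw [h]; exact b
    · rintro ⟨a, b⟩
      refine ⟨b j hj, b k hk, fun l hlj hlk => ?_⟩
      rcases hall l with h | h | h
      · rw [h, a]
      · exact absurd h hlj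
      · exact absurd h hlk
  refine ⟨h1, ?_⟩
  rw [frontier_Icc_fin2]
  ext x
  constructor
  · rintro ⟨v, ⟨hv, hb⟩, rfl⟩
    refine ⟨h1 ▸ mem_image_of_mem _ hv, ?_⟩
    have e1 : faceMap j k (fun l => (F.n l : ℝ)) v j = v 0 := by
      rw [faceMap_apply, if_pos rfl]
    have e2 : faceMap j k (fun l => (F.n l : ℝ)) v k = v 1 := by
      rw [faceMap_apply, if_neg hjk.symm, if_pos rfl]
    rcases hb with h | h | h | h
    · exact ⟨j, hj, Or.inl (e1.trans h)⟩
    · exact ⟨j, hj, Or.inr (e1.trans h)⟩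
    · exact ⟨k, hk, Or.inl (e2.trans h)⟩
    · exact ⟨k, hk, Or.inr (e2.trans h)⟩
  · rintro ⟨hx, l, hl, hb⟩
    rw [← h1] at hx
    obtain ⟨v, hv, rfl⟩ := hx
    have e1 : faceMap j k (fun l => (F.n l : ℝ)) v j = v 0 := by
      rw [faceMap_apply, if_pos rfl]
    have e2 : faceMap j k (fun l => (F.n l : ℝ)) v k = v 1 := by
      rw [faceMap_apply, if_neg hjk.symm, if_pos rfl]
    refine ⟨v, ⟨hv, ?_⟩, rfl⟩
    rcases hall l with h | h | h
    · exact absurd h hl
    · subst h
      rw [e1] at hb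
      rcases hb with hb | hb
      · exact Or.inl hb
      · exact Or.inr (Or.inl hb)
    · subst h
      rw [e2] at hb
      rcases hb with hb | hb
      · exact Or.inr (Or.inr (Or.inl hb))
      · exact Or.inr (Or.inr (Or.inr hb))

theorem CFace.conBall (F : CFace N) : ConBall 2 F.set F.bd := by
  obtain ⟨j, k, hj, hk, hjk, hall⟩ := exists_two F.i
  obtain ⟨h1, h2⟩ := F.eq_image hj hk hjk hall
  have := conBall_face hjk (fun l => (F.n l : ℝ)) (a := ![(F.n j : ℝ), F.n k])
    (b := ![(F.n j : ℝ) + 1, F.n k + 1]) (by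
      intro l; fin_cases l
      · exact lt_add_one _
      · exact lt_add_one _)
  rwa [h1, h2] at this

/-! ## Cubes -/

theorem CCube.eq_Icc (c : CCube N) : c.set = Icc (fun j => (c.n j : ℝ)) (fun j => c.n j + 1) := by
  ext x
  exact ⟨fun h => ⟨fun j => (h j).1, fun j => (h j).2⟩, fun h j => ⟨h.1 j, h.2 j⟩⟩

theorem CCube.isCompact (c : CCube N) : IsCompact c.set := by
  rw [c.eq_Icc]; exact isCompact_Icc

theorem CCube.mem_interior_iff (c : CCube N) {x : V} :
    x ∈ interior c.set ↔ ∀ j, (c.n j : ℝ) < x j ∧ x j < c.n j + 1 := by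
  rw [c.eq_Icc, ← Set.pi_univ_Icc, interior_pi_set finite_univ]
  simp only [interior_Icc, Set.mem_pi, mem_univ, forall_true_left, mem_Ioo]

theorem CCube.eq_closedBall (c : CCube N) :
    c.set = closedBall (fun j => (c.n j : ℝ) + 1 / 2) (1 / 2) := by
  ext x
  rw [mem_closedBall, dist_eq_norm, norm_le_iff (by norm_num)]
  refine forall_congr' fun j => ?_
  show _ ↔ |x j - ((c.n j : ℝ) + 1 / 2)| ≤ 1 / 2
  rw [abs_le]
  constructor
  · rintro ⟨h1, h2⟩; constructor <;> linarith
  · rintro ⟨h1, h2⟩; constructor <;> linarith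

theorem isPreconnected_compl_closedBall_ctr (a : V) {r : ℝ} (hr : 0 ≤ r) :
    IsPreconnected (closedBall a r)ᶜ := by
  have hrank : 1 < Module.rank ℝ V := by
    rw [rank_fun']
    simp only [Fintype.card_fin]
    norm_num
  have h1 : IsPreconnected (sphere (0 : V) 1 ×ˢ Ioi r) :=
    (isPreconnected_sphere hrank 0 1).prod isPreconnected_Ioi
  have h2 : (closedBall a r)ᶜ = (fun p : V × ℝ => a + p.2 • p.1) '' (sphere (0 : V) 1 ×ˢ Ioi r) := by
    ext x
    rw [mem_compl_iff, mem_closedBall, not_le, dist_eq_norm]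
    constructor
    · intro h
      have h0 : ‖x - a‖ ≠ 0 := (lt_of_le_of_lt hr h).ne'
      refine ⟨(‖x - a‖⁻¹ • (x - a), ‖x - a‖), ⟨?_, h⟩, ?_⟩
      · rw [mem_sphere_zero_iff_norm, norm_smul, norm_inv, norm_norm, inv_mul_cancel₀ h0]
      · simp only
        rw [smul_smul, mul_inv_cancel₀ h0, one_smul, add_sub_cancel]
    · rintro ⟨⟨u, s⟩, ⟨hu, hs⟩, rfl⟩
      simp only [mem_sphere_iff_norm, sub_zero] at hu
      simp only [mem_Ioi] at hs
      rw [add_sub_cancel_left, norm_smul, hu, mul_one, Real.norm_of_nonneg (hr.trans hs.le)]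
      exact hs
  rw [h2]
  exact h1.image _ (by fun_prop)

theorem CCube.isPreconnected_compl (c : CCube N) : IsPreconnected (c.set)ᶜ := by
  rw [c.eq_closedBall]
  exact isPreconnected_compl_closedBall_ctr _ (by norm_num)

theorem CCube.interior_subset_layer (c : CCube N) : interior c.set ⊆ layer N := by
  intro x hx
  rw [c.mem_interior_iff] at hx
  constructor
  · rw [lt_norm_iff (Nat.cast_nonneg N)]
    obtain ⟨j, hc⟩ := c.hc
    obtain ⟨h1, h2⟩ := hx j
    refine ⟨j, ?_⟩
    rcases hc with hc | hc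
    · rw [hc] at h1
      have : (N:ℝ) < x j := by exact_mod_cast h1
      exact lt_of_lt_of_le this (le_abs_self _)
    · rw [hc] at h2
      push_cast at h2
      have : x j < -(N:ℝ) := by linarith
      exact lt_of_lt_of_le (by linarith) (neg_le_abs _)
  · rw [norm_lt_iff (by positivity)]
    intro j
    obtain ⟨h1, h2⟩ := hx j
    obtain ⟨h3, h4⟩ := c.hn j
    have h3' : (-(N:ℝ) - 1) ≤ c.n j := by exact_mod_cast h3
    have h4' : (c.n j : ℝ) ≤ N := by exact_mod_cast h4
    rw [abs_lt]
    constructor <;> linarith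

theorem CCube.disjoint_X2 (c : CCube N) : Disjoint (interior c.set) (X2 N) := by
  rw [Set.disjoint_left]
  intro x hx h2
  rw [c.mem_interior_iff] at hx
  obtain ⟨F, hF⟩ := mem_iUnion.1 h2
  have := hx F.i
  rw [hF.1] at this
  exact int_not_between this.1 this.2

theorem floor_bounds {y : ℝ} (h : |y| < N + 1) : -(N:ℤ) - 1 ≤ ⌊y⌋ ∧ ⌊y⌋ ≤ N := by
  rw [abs_lt] at h
  constructor
  · rw [Int.le_floor]; push_cast; linarith [h.1]
  · have : ⌊y⌋ < (N:ℤ) + 1 := by
      rw [Int.floor_lt]; push_cast; exact h.2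
    omega

theorem floor_extreme {y : ℝ} (h : |y| < N + 1) (h' : (N:ℝ) < |y|) :
    ⌊y⌋ = N ∨ ⌊y⌋ = -(N:ℤ) - 1 := by
  rcases le_or_gt 0 y with hy | hy
  · left
    rw [abs_of_nonneg hy] at h h'
    rw [Int.floor_eq_iff]
    exact ⟨by push_cast; exact h'.le, by push_cast; exact h⟩
  · right
    rw [abs_of_neg hy] at h h'
    rw [Int.floor_eq_iff]
    exact ⟨by push_cast; linarith, by push_cast; linarith⟩

/-- the points of the layer off the faces have no integer coordinate -/
theorem noInt_of_notMem {x : V} (hx : x ∈ layer N) (h2 : x ∉ X2 N) (i : Fin 3) (m : ℤ) :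
    x i ≠ m := by
  intro hm
  apply h2
  have hlt : ∀ j, |x j| < N + 1 := (norm_lt_iff (by positivity)).1 hx.2
  obtain ⟨j, hj⟩ := (lt_norm_iff (Nat.cast_nonneg N)).1 hx.1
  have hmN : |m| ≤ N := abs_int_le_of_lt (hm ▸ hlt i)
  have hji : j ≠ i := by
    rintro rfl
    rw [hm] at hj
    exact absurd (abs_cast_le hmN) (not_le.2 hj)
  refine mem_iUnion.2 ⟨⟨i, fun l => ⌊x l⌋, ?_, fun l _ => floor_bounds (hlt l),
    ⟨j, hji, floor_extreme (hlt j) hj⟩⟩, ?_, fun l _ => ⟨Int.floor_le _, (Int.lt_floor_add_one _).le⟩⟩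
  · show |⌊x i⌋| ≤ (N:ℤ)
    rw [hm, Int.floor_intCast]; exact hmN
  · show x i = ((⌊x i⌋ : ℤ) : ℝ)
    rw [hm, Int.floor_intCast]

theorem specLayerCx : SpecLayerCx := by
  intro N hN Ω hΩ hbox
  have hX2ball : X2 N ⊆ closedBall (0 : V) (N + 1) := by
    intro x hx
    obtain ⟨F, hF⟩ := mem_iUnion.1 hx
    exact F.mem_closedBall hF
  have hlay : layer N ⊆ closedBall (0 : V) (N + 1) := by
    intro x hx
    rw [mem_closedBall_zero_iff]; exact hx.2.le
  exact
    { openΩ := hΩ
      openU := by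
        have : layer N = {x : V | (N:ℝ) < ‖x‖} ∩ {x : V | ‖x‖ < N + 1} := rfl
        rw [this]
        exact (isOpen_lt continuous_const continuous_norm).inter
          (isOpen_lt continuous_norm continuous_const)
      subU := hlay.trans hbox
      sub := hX2ball.trans hbox
      sub1 := iUnion_mono fun F x hx => hx.1
      closed1 := fun x _ hx => isClosed_X1.closure_eq ▸ hx
      closed2 := fun x _ hx => isClosed_X2.closure_eq ▸ hx
      cone2 := fun x _ => (LocCone.iUnion_finite fun F : CFace N => F.locCone) x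
      disc := fun F => F.conBall
      bd1 := fun F => subset_iUnion (fun F : CFace N => F.bd) F
      face := fun F => subset_iUnion (fun F : CFace N => F.set) F
      faceU := fun F => F.open_subset_layer
      cover := subset_union_right
      off1 := by
        intro F
        rw [Set.disjoint_left]
        intro x hx h1
        obtain ⟨G, hG⟩ := mem_iUnion.1 h1
        have := CFace.eq_of_mem_open hx hG.1
        subst this
        exact hx.2 hG
      openFace := by
        intro F x hx hcl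
        have hc : IsClosed (⋃ G : {G : CFace N // G ≠ F}, G.1.set) :=
          isClosed_iUnion_of_finite fun G => G.1.isClosed
        have hs : X2 N \ F.set ⊆ ⋃ G : {G : CFace N // G ≠ F}, G.1.set := by
          rintro y ⟨hy, hyF⟩
          obtain ⟨G, hG⟩ := mem_iUnion.1 hy
          exact mem_iUnion.2 ⟨⟨G, fun h => hyF (h ▸ hG)⟩, hG⟩
        have := (closure_minimal hs hc) hcl
        obtain ⟨G, hG⟩ := mem_iUnion.1 this
        exact G.2 (CFace.eq_of_mem_open hx hG)
      cpt := fun c => c.isCompact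
      csub := fun c => c.interior_subset_layer
      ccompl := fun c => c.isPreconnected_compl
      cint := fun c => c.disjoint_X2
      cells := by
        intro x hx h2
        have hno := noInt_of_notMem hx h2
        have hlt : ∀ j, |x j| < N + 1 := (norm_lt_iff (by positivity)).1 hx.2
        obtain ⟨j, hj⟩ := (lt_norm_iff (Nat.cast_nonneg N)).1 hx.1
        refine ⟨⟨fun l => ⌊x l⌋, fun l => floor_bounds (hlt l), ⟨j, floor_extreme (hlt j) hj⟩⟩, ?_⟩
        rw [CCube.mem_interior_iff]
        intro l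
        exact ⟨lt_of_le_of_ne (Int.floor_le _) fun h => hno l _ h.symm, Int.lt_floor_add_one _⟩
      cells' := by
        intro c x hx h2 hc
        have hno := noInt_of_notMem hx h2
        rw [CCube.mem_interior_iff]
        intro l
        refine ⟨lt_of_le_of_ne (hc l).1 fun h => hno l _ h.symm, lt_of_le_of_ne (hc l).2 fun h =>
          hno l (c.n l + 1) (by rw [h]; push_cast; ring)⟩
      fc := by
        rintro F c ⟨x, hx, hc⟩ y hy l
        rw [F.mem_open_iff] at hx
        by_cases h : l = F.i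
        · rw [h, hy.1, ← hx.1]; exact hc F.i
        · have h1 := hx.2 l h
          have h2 := int_eq_of_between h1.1 h1.2 (hc l).1 (hc l).2
          rw [h2]; exact hy.2 l h }

end P073.GB3
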