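import Vale.Agent.P073.GB3.TR
import Vale.Agent.P073.GB3.Body

/-!
# P073, block GB: generic levels of a conical function in a conical disc
-/

open Set Metric Topology Filter

namespace P073.GB3

open P073 P073.GB73 P073.PR720
open Vale.Agent.P073.St (V)

section general

variable {T : Type*} [TopologicalSpace T] [SecondCountableTopology T]

/-- the values of a real function at its local maxima are countable -/
theorem countable_localMax_values (v : T → ℝ) (τ : Set T) :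
    {c : ℝ | ∃ x ∈ τ, v x = c ∧ ∀ᶠ x' in 𝓝[τ] x, v x' ≤ c}.Countable := by
  set 𝒷 := TopologicalSpace.countableBasis T with h𝒷
  have hcount : (𝒷).Countable := TopologicalSpace.countable_countableBasis T
  have hsub : {c : ℝ | ∃ x ∈ τ, v x = c ∧ ∀ᶠ x' in 𝓝[τ] x, v x' ≤ c} ⊆
      ⋃ U ∈ 𝒷, {c : ℝ | IsGreatest (v '' (U ∩ τ)) c} := by
    rintro c ⟨x, hx, hxc, hev⟩
    rw [eventually_nhdsWithin_iff] at hev
    obtain ⟨U, hU, hxU, hUs⟩ :=
      (TopologicalSpace.isBasis_countableBasis T).mem_nhds_iff.1 hev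
    refine mem_biUnion hU ⟨⟨x, ⟨hxU, hx⟩, hxc⟩, ?_⟩
    rintro _ ⟨x', ⟨hx'U, hx'⟩, rfl⟩
    exact hUs hx'U hx'
  refine Countable.mono hsub (hcount.biUnion fun U _ => ?_)
  exact Set.Subsingleton.countable fun a ha b hb => ha.unique hb

/-- the values of a real function at its local extrema are countable -/
theorem countable_localExtr_values (v : T → ℝ) (τ : Set T) : ∃ N : Set ℝ, N.Countable ∧
    ∀ t ∉ N, ∀ x ∈ τ, v x = t → (∃ᶠ x' in 𝓝[τ] x, v x' < t) ∧ ∃ᶠ x' in 𝓝[τ] x, t < v x' := by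
  refine ⟨{c : ℝ | ∃ x ∈ τ, v x = c ∧ ∀ᶠ x' in 𝓝[τ] x, v x' ≤ c} ∪
    (fun c => -c) '' {c : ℝ | ∃ x ∈ τ, (fun x => - v x) x = c ∧ ∀ᶠ x' in 𝓝[τ] x, - v x' ≤ c},
    (countable_localMax_values v τ).union
      ((countable_localMax_values (fun x => - v x) τ).image _), ?_⟩
  intro t ht x hx hxt
  rw [mem_union, not_or] at ht
  constructor
  · intro h
    apply ht.2
    refine ⟨-t, ⟨x, hx, by simp only [hxt], ?_⟩, neg_neg t⟩
    exact h.mono fun x' hx' => neg_le_neg (not_lt.1 hx')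
  · intro h
    exact ht.1 ⟨x, hx, hxt, h.mono fun x' hx' => not_lt.1 hx'⟩

end general

/-- the standard square as an interval -/
theorem closedBall_eq_Icc2 : closedBall (0 : Fin 2 → ℝ) 1 = Icc (fun _ => -1) (fun _ => 1) := by
  ext x
  rw [mem_closedBall_zero_iff, pi_norm_le_iff_of_nonneg zero_le_one]
  simp only [mem_Icc, Pi.le_def, Real.norm_eq_abs, abs_le]
  exact forall_and

/-- image of a conical sphere -/
theorem conSphere_image' {E F : Type*} [NormedAddCommGroup E] [NormedSpace ℝ E]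
    [NormedAddCommGroup F] [NormedSpace ℝ F] {n : ℕ} {S : Set E} (h : ConSphere n S)
    {X : Set E} {Y : Set F} (Φ : ConHomeo X Y) (hS : S ⊆ X) : ConSphere n (Φ.toFun '' S) := by
  obtain ⟨φ⟩ := h
  exact ⟨(Φ.restr φ.conicalSet_left hS).symm.trans φ⟩

/-- the description of a generic level set in a disc -/
structure TileLevel (τ β : Set V) (v : V → ℝ) (t : ℝ) (L M : Type) (κ : L → Set V)
    (α e : M → Set V) : Prop where
  finL : Finite L
  finM : Finite M
  eq : {x | x ∈ τ ∧ v x = t} = (⋃ l, κ l) ∪ ⋃ m, α m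
  circle : ∀ l, ConSphere 1 (κ l)
  inTile : ∀ l, κ l ⊆ τ \ β
  disjκ : ∀ l l', l ≠ l' → Disjoint (κ l) (κ l')
  arc : ∀ m, ConBall 1 (α m) (e m)
  ends : ∀ m, α m ∩ β = e m
  disjα : ∀ m m', m ≠ m' → Disjoint (α m) (α m')
  disj : ∀ l m, Disjoint (κ l) (α m)

/-- **Generic levels in a conical disc.** -/
theorem exists_tile_levels {τ β : Set V} (hτ : ConBall 2 τ β) {v : V → ℝ} (hc : ContinuousOn v τ)
    (hv : ConicalOn v τ) : ∃ N : Set ℝ, N.Countable ∧ ∀ t ∉ N,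
      ∃ (L M : Type) (κ : L → Set V) (α e : M → Set V), TileLevel τ β v t L M κ α e := by
  obtain ⟨φ, hφ⟩ := hτ.eq_preimage
  have hsq : Icc (fun _ : Fin 2 => (-1:ℝ)) (fun _ => 1) = closedBall 0 1 := closedBall_eq_Icc2.symm
  have hfr : frontier (closedBall (0 : Fin 2 → ℝ) 1) = sphere 0 1 :=
    frontier_closedBall _ one_ne_zero
  have hmaps : MapsTo φ.invFun (closedBall 0 1) τ := φ.mapsTo_inv
  obtain ⟨N, hN, H⟩ := specTR (fun _ => (-1:ℝ)) (fun _ => 1) (fun _ => by norm_num)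
    (v ∘ φ.invFun) (by rw [hsq]; exact hc.comp φ.cont_inv hmaps)
    (by rw [hsq]; exact hv.comp φ.conical_inv hmaps φ.cont_inv)
  refine ⟨N, hN, fun t ht => ?_⟩
  obtain ⟨L, M, κ, α, e, hL, hM, heq, hκ, hκd, hα, hαd, hd⟩ := H t ht
  rw [hsq] at heq hκ hα
  rw [hfr] at hα
  have hκD : ∀ l, κ l ⊆ closedBall 0 1 := fun l => (hκ l).2.trans interior_subset
  have hαD : ∀ m, α m ⊆ closedBall 0 1 := by
    intro m x hx
    have : x ∈ {x ∈ closedBall (0 : Fin 2 → ℝ) 1 | (v ∘ φ.invFun) x = t} :=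
      heq ▸ Or.inr (mem_iUnion.2 ⟨m, hx⟩)
    exact this.1
  have hinj : ∀ {S S' : Set (Fin 2 → ℝ)}, S ⊆ closedBall 0 1 → S' ⊆ closedBall 0 1 →
      Disjoint S S' → Disjoint (φ.invFun '' S) (φ.invFun '' S') := by
    intro S S' hS hS' hd
    rw [Set.disjoint_left]
    rintro _ ⟨x, hx, rfl⟩ ⟨x', hx', he⟩
    have := φ.symm.injOn (hS' hx') (hS hx) he
    subst this
    exact Set.disjoint_left.1 hd hx hx'
  refine ⟨L, M, fun l => φ.invFun '' κ l, fun m => φ.invFun '' α m, fun m => φ.invFun '' e m,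
    { finL := hL
      finM := hM
      eq := ?_
      circle := fun l => conSphere_image' (hκ l).1 φ.symm (hκD l)
      inTile := ?_
      disjκ := fun l l' hl => hinj (hκD l) (hκD l') (hκd l l' hl)
      arc := fun m => (hα m).1.image φ.symm (hαD m)
      ends := ?_
      disjα := fun m m' hm => hinj (hαD m) (hαD m') (hαd m m' hm)
      disj := fun l m => hinj (hκD l) (hαD m) (hd l m) }⟩
  · rw [← image_iUnion, ← image_iUnion, ← image_union, ← heq]
    ext x
    constructor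
    · rintro ⟨hx, hxt⟩
      refine ⟨φ.toFun x, ⟨φ.mapsTo hx, ?_⟩, φ.left_inv hx⟩
      show v (φ.invFun (φ.toFun x)) = t
      rw [φ.left_inv hx, hxt]
    · rintro ⟨z, ⟨hz, hzt⟩, rfl⟩
      exact ⟨hmaps hz, hzt⟩
  · rintro l _ ⟨z, hz, rfl⟩
    refine ⟨hmaps (hκD l hz), fun hb => ?_⟩
    rw [← hφ] at hb
    obtain ⟨z', hz', he⟩ := hb
    have := φ.symm.injOn (sphere_subset_closedBall hz') (hκD l hz) he
    subst this
    have h1 := (hκ l).2 hz
    rw [interior_closedBall _ one_ne_zero, mem_ball_zero_iff] at h1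
    rw [mem_sphere_zero_iff_norm] at hz'
    exact absurd hz' h1.ne
  · intro m
    rw [← hφ, ← (hα m).2]
    apply Subset.antisymm
    · rintro _ ⟨⟨z, hz, rfl⟩, ⟨z', hz', he⟩⟩
      have := φ.symm.injOn (sphere_subset_closedBall hz') (hαD m hz) he
      subst this
      exact ⟨z', ⟨hz, hz'⟩, rfl⟩
    · rintro _ ⟨z, ⟨hz, hz'⟩, rfl⟩
      exact ⟨⟨z, hz, rfl⟩, ⟨z, hz', rfl⟩⟩

/-! ## The arcs -/

theorem sphere_fin1 : sphere (0 : Fin 1 → ℝ) 1 = {fun _ => 1, fun _ => -1} := by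
  ext x
  rw [mem_sphere_zero_iff_norm]
  have h1 : ‖x‖ = |x 0| := by
    have hx : x = fun _ => x 0 := by funext i; rw [Subsingleton.elim i 0]
    rw [hx, pi_norm_const, Real.norm_eq_abs]
  rw [h1]
  constructor
  · intro h
    rcases abs_eq (zero_le_one) |>.1 h with h | h
    · left; funext i; rw [Subsingleton.elim i 0, h]
    · right; show x = _; funext i; rw [Subsingleton.elim i 0, h]
  · rintro (h | h)
    · rw [h]; simp
    · have : x = fun _ => -1 := h
      rw [this]; simp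

theorem conBall1_pair {E : Type*} [NormedAddCommGroup E] [NormedSpace ℝ E] {C B : Set E}
    (h : ConBall 1 C B) : ∃ p q, p ≠ q ∧ B = {p, q} := by
  obtain ⟨φ, hφ⟩ := h.eq_preimage
  rw [sphere_fin1, image_pair] at hφ
  refine ⟨_, _, ?_, hφ.symm⟩
  intro he
  have h1 : (fun _ => 1 : Fin 1 → ℝ) ∈ closedBall (0 : Fin 1 → ℝ) 1 :=
    sphere_subset_closedBall (by rw [sphere_fin1]; exact Or.inl rfl)
  have h2 : (fun _ => -1 : Fin 1 → ℝ) ∈ closedBall (0 : Fin 1 → ℝ) 1 :=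
    sphere_subset_closedBall (by rw [sphere_fin1]; exact Or.inr rfl)
  have h3 := congrFun (φ.symm.injOn h1 h2 he) 0
  norm_num at h3

theorem TileLevel.isEmpty {τ β : Set V} {v : V → ℝ} {t : ℝ} {L M : Type} {κ : L → Set V}
    {α e : M → Set V} (H : TileLevel τ β v t L M κ α e) (h : ∀ x ∈ τ, x ∈ β → v x ≠ t) :
    IsEmpty M := by
  refine ⟨fun m => ?_⟩
  obtain ⟨p, q, -, he⟩ := conBall1_pair (H.arc m)
  have hp : p ∈ α m ∩ β := by rw [H.ends m, he]; exact Or.inl rfl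
  have h1 : p ∈ {x | x ∈ τ ∧ v x = t} := H.eq ▸ Or.inr (mem_iUnion.2 ⟨m, hp.1⟩)
  exact h p h1.1 hp.2 h1.2

theorem TileLevel.exists_arc {τ β : Set V} {v : V → ℝ} {t : ℝ} {L M : Type} {κ : L → Set V}
    {α e : M → Set V} (H : TileLevel τ β v t L M κ α e) (hβ : β ⊆ τ) {p q : V}
    (h : {x | x ∈ β ∧ v x = t} = {p, q}) :
    ∃ m, (∀ m', m' = m) ∧ e m = {p, q} := by
  have hsub : ∀ m, e m ⊆ {p, q} := by
    intro m x hx
    rw [← H.ends m] at hx
    have h1 : x ∈ {x | x ∈ τ ∧ v x = t} := H.eq ▸ Or.inr (mem_iUnion.2 ⟨m, hx.1⟩)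
    rw [← h]
    exact ⟨hx.2, h1.2⟩
  have heq : ∀ m, e m = {p, q} := by
    intro m
    obtain ⟨p', q', hne, he⟩ := conBall1_pair (H.arc m)
    apply Subset.antisymm (hsub m)
    have hp' : p' ∈ ({p, q} : Set V) := hsub m (by rw [he]; exact Or.inl rfl)
    have hq' : q' ∈ ({p, q} : Set V) := hsub m (by rw [he]; exact Or.inr rfl)
    rw [he]
    rcases hp' with rfl | hp' <;> rcases hq' with rfl | hq'
    · exact absurd rfl hne
    · have : q' = q := hq'
      rw [this]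
    · have : p' = q := hp'
      rw [this, pair_comm]
    · have h1 : p' = q := hp'
      have h2 : q' = q := hq'
      exact absurd (h1.trans h2.symm) hne
  have hp : p ∈ {x | x ∈ β ∧ v x = t} := by rw [h]; exact Or.inl rfl
  have hp' : p ∈ {x | x ∈ τ ∧ v x = t} := ⟨hβ hp.1, hp.2⟩
  rw [H.eq] at hp'
  rcases hp' with hl | hm
  · obtain ⟨l, hl⟩ := mem_iUnion.1 hl
    exact absurd hp.1 (H.inTile l hl).2
  · obtain ⟨m, hm⟩ := mem_iUnion.1 hm
    refine ⟨m, fun m' => ?_, heq m⟩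
    by_contra hne
    have h1 : p ∈ α m' := (H.arc m').1 (by rw [heq m']; exact Or.inl rfl)
    exact Set.disjoint_left.1 (H.disjα m' m hne) h1 hm

end P073.GB3
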