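import Vale.Agent.P073.GB3.Levels1

/-!
# P073, block GB: generic levels of `bg A ∘ k` in the two-skeleton
-/

open Set Metric Topology Filter

namespace P073.GB3

open P073 P073.GB73 P073.PR720
open Vale.Agent.P073.St (V)

section complex

variable {Vx B J I : Type} {e0 e1 : B → Vx} {inc : B → J → Prop} {qC : J → I → Prop} {Ω : Set V}

theorem Cx3.tile_subset_cell (K : Cx3 e0 e1 inc qC Ω) {j : J} {c : I} (h : qC j c) :
    K.tile j ⊆ K.cell c :=
  (subset_biUnion_of_mem (u := fun s => K.tile s) (show j ∈ {s | qC s c} from h)).trans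
    (K.cball c).1

theorem Cx3.cell_subset (K : Cx3 e0 e1 inc qC Ω) (c : I) : K.cell c ⊆ Ω :=
  (subset_iUnion _ c).trans K.cover.subset

theorem Cx3.tile_subset (K : Cx3 e0 e1 inc qC Ω) (j : J) : K.tile j ⊆ Ω := by
  obtain ⟨c, d, -, h⟩ := K.two j
  exact (Cx3.tile_subset_cell K ((h c).2 (Or.inl rfl))).trans (Cx3.cell_subset K c)

theorem Cx3.arc_subset (K : Cx3 e0 e1 inc qC Ω) (b : B) : K.arc b ⊆ Ω := by
  obtain ⟨j, hj⟩ := K.arc_tile b
  exact (K.toCx2.arc_subset_tile hj).trans (Cx3.tile_subset K j)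

theorem Cx3.lf_tile (K : Cx3 e0 e1 inc qC Ω) : LF K.tile Ω := by
  refine K.clf.of_cover (fun j c => qC j c) (fun j => ?_) (fun c => K.fin_qC c)
  obtain ⟨c, d, -, h⟩ := K.two j
  exact ⟨c, (h c).2 (Or.inl rfl), Cx3.tile_subset_cell K ((h c).2 (Or.inl rfl))⟩

theorem countable_of_LF {ι : Type*} {A : ι → Set V} {W : Set V} (h : LF A W)
    (hne : ∀ i, (A i ∩ W).Nonempty) : Countable ι := by
  choose! U hU hfin using h
  obtain ⟨t, htW, htc, hcov⟩ := TopologicalSpace.countable_cover_nhdsWithin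
    (f := U) (s := W) (fun x hx => mem_nhdsWithin_of_mem_nhds (hU x hx))
  have h1 : (univ : Set ι) ⊆ ⋃ x ∈ t, {i | (A i ∩ U x).Nonempty} := by
    intro i _
    obtain ⟨z, hz, hzW⟩ := hne i
    obtain ⟨x, hx, hzx⟩ := mem_iUnion₂.1 (hcov hzW)
    exact mem_biUnion hx ⟨z, hz, hzx⟩
  have h2 : (univ : Set ι).Countable :=
    Countable.mono h1 (htc.biUnion fun x hx => (hfin x (htW hx)).countable)
  exact countable_univ_iff.1 h2

theorem conBall_nonempty {E : Type*} [NormedAddCommGroup E] [NormedSpace ℝ E] {n : ℕ}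
    {C B : Set E} (h : ConBall n C B) : C.Nonempty := by
  obtain ⟨_, φ, _⟩ := h
  exact ⟨φ.invFun 0, φ.mapsTo_inv (mem_closedBall_self zero_le_one)⟩

theorem Cx3.countable_J (K : Cx3 e0 e1 inc qC Ω) : Countable J := by
  refine countable_of_LF (Cx3.lf_tile K) fun j => ?_
  obtain ⟨x, hx⟩ := conBall_nonempty (K.tball j)
  exact ⟨x, hx, Cx3.tile_subset K j hx⟩

/-- finitely many members of a locally finite family meet a compact set -/
theorem finite_of_LF {ι : Type*} {A : ι → Set V} {W C : Set V} (h : LF A W) (hC : IsCompact C)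
    (hCW : C ⊆ W) : {i | (A i ∩ C).Nonempty}.Finite := by
  choose! U hU hfin using h
  obtain ⟨t, htC, ht⟩ := hC.elim_nhds_subcover U fun x hx => hU x (hCW hx)
  refine (t.finite_toSet.biUnion fun x hx => hfin x (hCW (htC x hx))).subset ?_
  rintro i ⟨z, hz, hzC⟩
  obtain ⟨x, hx, hzx⟩ := mem_iUnion₂.1 (ht hzC)
  exact mem_biUnion hx ⟨z, hz, hzx⟩

end complex

/-! ## The level set of the body function in the two-skeleton -/

section levels

variable {Vx B J I : Type} {e0 e1 : B → Vx} {inc : B → J → Prop} {qC : J → I → Prop}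
  {Ω Λ : Set V}

/-- the description of the intersection of a level surface with the two-skeleton -/
structure NetLevel (K : Cx3 e0 e1 inc qC Ω) (v : V → ℝ) (t : ℝ) (P : Set B) (p : B → V)
    (L : Type) (κ : L → Set V) (ι : L → J) (α : J → Set V) : Prop where
  fin : Finite L
  circle : ∀ l, ConSphere 1 (κ l)
  inTile : ∀ l, κ l ⊆ K.tile (ι l) \ K.toCx2.bd (ι l)
  disj : ∀ l l', l ≠ l' → Disjoint (κ l) (κ l')
  /-- uncrossed tiles -/
  off : ∀ j, {b | inc b j ∧ b ∈ P} = ∅ → α j = ∅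
  /-- crossed tiles -/
  arc : ∀ j b b', b ≠ b' → {b | inc b j ∧ b ∈ P} = {b, b'} → ConBall 1 (α j) {p b, p b'}
  sub : ∀ j, α j ⊆ K.tile j
  bd : ∀ j, α j ∩ K.toCx2.bd j = {x | x ∈ K.toCx2.bd j ∧ v x = t}
  pt : ∀ b ∈ P, {x | x ∈ K.arc b ∧ v x = t} = {p b}
  off_pt : ∀ b ∉ P, ∀ x ∈ K.arc b, v x ≠ t
  tile : ∀ j, {x | x ∈ K.tile j ∧ v x = t} = α j ∪ ⋃ l : {l // ι l = j}, κ l
  eq : {x | x ∈ ⋃ j, K.tile j ∧ v x = t} = (⋃ j, α j) ∪ ⋃ l, κ l
  disjα : ∀ l j, Disjoint (κ l) (α j)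
  cpt : IsCompact (⋃ j, α j)
  conn : IsPreconnected (⋃ j, α j)
  mem : ∀ b ∈ P, p b ∈ ⋃ j, α j
  cross : ∀ j, ∀ x ∈ K.tile j \ K.toCx2.bd j, v x = t →
    (∃ᶠ x' in 𝓝[K.tile j \ K.toCx2.bd j] x, v x' < t) ∧
      ∃ᶠ x' in 𝓝[K.tile j \ K.toCx2.bd j] x, t < v x'

/-- an open tile meets no other tile -/
theorem open_tile_disjoint (K : Cx3 e0 e1 inc qC Ω) {j j' : J} {x : V}
    (hx : x ∈ K.tile j \ K.toCx2.bd j) (hx' : x ∈ K.tile j') : j' = j := by
  by_contra h
  obtain ⟨b, hb⟩ := mem_iUnion.1 (K.tile_tile j j' (Ne.symm h) ⟨hx.1, hx'⟩)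
  exact hx.2 (K.tile_arc j b ⟨hx.1, hb⟩)

theorem TileLevel.ends_union {τ β : Set V} {v : V → ℝ} {t : ℝ} {L M : Type} {κ : L → Set V}
    {α e : M → Set V} (H : TileLevel τ β v t L M κ α e) (hβ : β ⊆ τ) :
    (⋃ m, α m) ∩ β = {x | x ∈ β ∧ v x = t} := by
  ext x
  constructor
  · rintro ⟨hx, hb⟩
    have : x ∈ {x | x ∈ τ ∧ v x = t} := H.eq ▸ Or.inr hx
    exact ⟨hb, this.2⟩
  · rintro ⟨hb, hx⟩
    have : x ∈ {x | x ∈ τ ∧ v x = t} := ⟨hβ hb, hx⟩
    rw [H.eq] at this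
    rcases this with h | h
    · obtain ⟨l, hl⟩ := mem_iUnion.1 h
      exact absurd hb (H.inTile l hl).2
    · exact ⟨h, hb⟩

/-- **Generic levels.** -/
theorem exists_levels (K : Cx3 e0 e1 inc qC Ω) (k : ConHomeo Ω Λ) {A : Body} (hA : A.Good Λ)
    {P : Set B} (hP : Pat inc P) {y : ℝ → B → V} {T : Set ℝ} (hT : T ⊆ A.T) (hTu : ¬ T.Countable)
    (hcr : ∀ t ∈ T, Crosses K.toGraph k.toFun (A.at t) P (y t)) :
    ∃ T' ⊆ T, ¬ T'.Countable ∧ ∀ t ∈ T', ∃ (L : Type) (κ : L → Set V) (ι : L → J)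
      (α : J → Set V), NetLevel K (fun x => bg A (k.toFun x)) t P (fun b => k.invFun (y t b))
        L κ ι α := by
  classical
  set v : V → ℝ := fun x => bg A (k.toFun x) with hv
  have hvc : ContinuousOn v Ω := (continuous_bg hA).comp_continuousOn k.cont
  have hvC : ConicalOn v Ω := (conicalOn_bg hA).comp k.conical (mapsTo_univ _ _) k.cont
  have hcountJ : Countable J := Cx3.countable_J K
  have hbdt : ∀ j, K.toCx2.bd j ⊆ K.tile j := fun j => K.toCx2.bd_subset j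
  choose N hN H using fun j => exists_tile_levels (K.tball j) (hvc.mono (Cx3.tile_subset K j))
    (hvC.mono (K.tball j).conicalSet (Cx3.tile_subset K j))
  choose N' hN' H' using fun j => countable_localExtr_values v (K.tile j \ K.toCx2.bd j)
  refine ⟨T \ ⋃ j, (N j ∪ N' j), sdiff_subset, ?_, ?_⟩
  · intro hc
    apply hTu
    refine (hc.union (countable_iUnion fun j => (hN j).union (hN' j))).mono ?_
    intro t ht
    by_cases h : t ∈ ⋃ j, (N j ∪ N' j)
    · exact Or.inr h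
    · exact Or.inl ⟨ht, h⟩
  rintro t ⟨htT, htN⟩
  have htA : t ∈ A.T := hT htT
  have ht0 : 0 < t := hA.pos t htA
  have hcross := hcr t htT
  have hnot : ∀ j, t ∉ N j ∧ t ∉ N' j := by
    intro j
    constructor
    · intro h; exact htN (mem_iUnion.2 ⟨j, Or.inl h⟩)
    · intro h; exact htN (mem_iUnion.2 ⟨j, Or.inr h⟩)
  choose L M κ α e HL using fun j => H j t (hnot j).1
  have hbd' : ∀ j, (⋃ b ∈ {b | inc b j}, K.arc b) = K.toCx2.bd j := fun j => rfl
  -- the compact level set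
  have hfr : ∀ {z : V}, bg A z = t ↔ z ∈ frontier (A.at t) := eq_iff_mem_frontier_at hA ht0
  have hAc : IsCompact (A.at t) := by
    rw [at_eq_image ht0]; exact hA.compact.image (homothety A ht0).continuous
  have hfrc : IsCompact (frontier (A.at t)) :=
    hAc.of_isClosed_subset isClosed_frontier hAc.isClosed.frontier_subset
  have hfrΛ : frontier (A.at t) ⊆ Λ := hAc.isClosed.frontier_subset.trans (hA.sub t htA)
  set C : Set V := k.invFun '' frontier (A.at t) with hC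
  have hCc : IsCompact C := hfrc.image_of_continuousOn (k.cont_inv.mono hfrΛ)
  have hCΩ : C ⊆ Ω := by
    rintro _ ⟨z, hz, rfl⟩; exact k.mapsTo_inv (hfrΛ hz)
  have hmemC : ∀ x ∈ Ω, v x = t → x ∈ C := by
    intro x hx hxt
    exact ⟨k.toFun x, hfr.1 hxt, k.left_inv hx⟩
  have hSfin : {j | (K.tile j ∩ C).Nonempty}.Finite := finite_of_LF (Cx3.lf_tile K) hCc hCΩ
  set S : Set J := {j | (K.tile j ∩ C).Nonempty} with hS
  have hmemS : ∀ j, ∀ x ∈ K.tile j, v x = t → j ∈ S :=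
    fun j x hx hxt => ⟨x, hx, hmemC x (Cx3.tile_subset K j hx) hxt⟩
  have : Finite S := hSfin
  have hLfin : ∀ j, Finite (L j) := fun j => (HL j).finL
  have hMfin : ∀ j, Finite (M j) := fun j => (HL j).finM
  have hlev : ∀ j, ∀ x ∈ (⋃ l, κ j l) ∪ ⋃ m, α j m, x ∈ K.tile j ∧ v x = t := by
    intro j x hx
    have : x ∈ {x | x ∈ K.tile j ∧ v x = t} := (HL j).eq ▸ hx
    exact this
  -- the points on the arcs
  have hp : ∀ b ∈ P, k.invFun (y t b) ∈ K.arc b ∧ v (k.invFun (y t b)) = t ∧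
      k.toFun (k.invFun (y t b)) = y t b := by
    intro b hb
    have h1 : y t b ∈ k.toFun '' K.arc b ∩ frontier (A.at t) := by
      rw [hcross.on b hb]; exact rfl
    obtain ⟨⟨x, hx, hxy⟩, h2⟩ := h1
    have h3 : k.invFun (y t b) = x := by
      rw [← hxy]; exact k.left_inv (Cx3.arc_subset K b hx)
    rw [h3]
    refine ⟨hx, ?_, hxy⟩
    show bg A (k.toFun x) = t
    rw [hxy]; exact hfr.2 h2
  have hpt : ∀ b ∈ P, {x | x ∈ K.arc b ∧ v x = t} = {k.invFun (y t b)} := by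
    intro b hb
    ext x
    constructor
    · rintro ⟨hx, hxt⟩
      have h1 : k.toFun x ∈ k.toFun '' K.arc b ∩ frontier (A.at t) :=
        ⟨mem_image_of_mem _ hx, hfr.1 hxt⟩
      rw [hcross.on b hb] at h1
      have h2 : k.toFun x = y t b := h1
      show x = _
      rw [← h2, k.left_inv (Cx3.arc_subset K b hx)]
    · intro hx
      have hx' : x = k.invFun (y t b) := hx
      rw [hx']
      exact ⟨(hp b hb).1, (hp b hb).2.1⟩
  have hoff : ∀ b ∉ P, ∀ x ∈ K.arc b, v x ≠ t := by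
    intro b hb x hx hxt
    exact Set.disjoint_left.1 (hcross.off b hb) (mem_image_of_mem _ hx) (hfr.1 hxt)
  have hbdt : ∀ j, {x | x ∈ K.toCx2.bd j ∧ v x = t} =
      ⋃ b ∈ {b | inc b j ∧ b ∈ P}, {k.invFun (y t b)} := by
    intro j
    ext x
    constructor
    · rintro ⟨hx, hxt⟩
      obtain ⟨b, hb, hxb⟩ := mem_iUnion₂.1 hx
      have hbP : b ∈ P := by
        by_contra hbP; exact hoff b hbP x hxb hxt
      refine mem_iUnion₂.2 ⟨b, ⟨hb, hbP⟩, ?_⟩
      rw [← hpt b hbP]; exact ⟨hxb, hxt⟩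
    · intro hx
      obtain ⟨b, ⟨hb, hbP⟩, hxb⟩ := mem_iUnion₂.1 hx
      rw [← hpt b hbP] at hxb
      exact ⟨mem_iUnion₂.2 ⟨b, hb, hxb.1⟩, hxb.2⟩
  have hoffj : ∀ j, {b | inc b j ∧ b ∈ P} = ∅ → (⋃ m, α j m) = ∅ := by
    intro j hj
    have hem : IsEmpty (M j) := by
      refine (HL j).isEmpty fun x _ hxb hxt => ?_
      have h1 : x ∈ {x | x ∈ K.toCx2.bd j ∧ v x = t} := ⟨hxb, hxt⟩
      rw [hbdt j, hj] at h1
      simp at h1
    exact iUnion_of_empty _
  have harcj : ∀ j b b', {b | inc b j ∧ b ∈ P} = {b, b'} →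
      ConBall 1 (⋃ m, α j m) {k.invFun (y t b), k.invFun (y t b')} := by
    intro j b b' hj
    have h1 : {x | x ∈ K.toCx2.bd j ∧ v x = t} = {k.invFun (y t b), k.invFun (y t b')} := by
      rw [hbdt j, hj, biUnion_pair]; rfl
    obtain ⟨m, hm, he⟩ := (HL j).exists_arc (K.tball j).1 h1
    have h2 : (⋃ m, α j m) = α j m := by
      apply Subset.antisymm
      · refine iUnion_subset fun m' => ?_
        rw [hm m']
      · exact subset_iUnion _ m
    rw [h2, ← he]
    exact (HL j).arc m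
  have hbdj : ∀ j, (⋃ m, α j m) ∩ K.toCx2.bd j = {x | x ∈ K.toCx2.bd j ∧ v x = t} :=
    fun j => (HL j).ends_union (K.tball j).1
  have hsubj : ∀ j, (⋃ m, α j m) ⊆ K.tile j := fun j x hx => (hlev j x (Or.inr hx)).1
  have hmemP : ∀ b ∈ P, ∀ j, inc b j → k.invFun (y t b) ∈ ⋃ m, α j m := by
    intro b hb j hj
    have h1 : k.invFun (y t b) ∈ {x | x ∈ K.toCx2.bd j ∧ v x = t} := by
      rw [hbdt j]; exact mem_iUnion₂.2 ⟨b, ⟨hj, hb⟩, rfl⟩
    rw [← hbdj j] at h1
    exact h1.1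
  refine ⟨Σ j : S, L j.1, fun l => κ l.1.1 l.2, fun l => l.1.1, fun j => ⋃ m, α j m,
    { fin := inferInstance
      circle := fun l => (HL l.1.1).circle l.2
      inTile := fun l => (HL l.1.1).inTile l.2
      disj := ?_
      off := hoffj
      arc := fun j b b' _ hj => harcj j b b' hj
      sub := hsubj
      bd := hbdj
      pt := hpt
      off_pt := hoff
      tile := ?_
      eq := ?_
      disjα := ?_
      cpt := ?_
      conn := ?_
      mem := ?_
      cross := fun j x hx hxt => H' j t (hnot j).2 x hx hxt }⟩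
  · rintro ⟨⟨j, hj⟩, l⟩ ⟨⟨j', hj'⟩, l'⟩ hne
    rw [Set.disjoint_left]
    intro x hx hx'
    have h1 := (HL j).inTile l hx
    have h2 := (HL j').inTile l' hx'
    have h3 : j' = j := open_tile_disjoint K h1 h2.1
    subst h3
    have h4 : l ≠ l' := by
      intro h; apply hne; rw [h]
    exact Set.disjoint_left.1 ((HL j').disjκ l l' h4) hx hx'
  · intro j
    ext x
    constructor
    · rintro ⟨hx, hxt⟩
      have h1 : x ∈ {x | x ∈ K.tile j ∧ v x = t} := ⟨hx, hxt⟩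
      rw [(HL j).eq] at h1
      rcases h1 with h1 | h1
      · obtain ⟨l, hl⟩ := mem_iUnion.1 h1
        exact Or.inr (mem_iUnion.2 ⟨⟨⟨⟨j, hmemS j x hx hxt⟩, l⟩, rfl⟩, hl⟩)
      · exact Or.inl h1
    · rintro (h | h)
      · exact hlev j x (Or.inr h)
      · obtain ⟨⟨⟨⟨j', hj'⟩, l⟩, hl⟩, hx⟩ := mem_iUnion.1 h
        simp only at hl hx
        subst hl
        exact hlev j' x (Or.inl (mem_iUnion.2 ⟨l, hx⟩))
  · ext x
    constructor
    · rintro ⟨hx, hxt⟩
      obtain ⟨j, hj⟩ := mem_iUnion.1 hx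
      have h1 : x ∈ {x | x ∈ K.tile j ∧ v x = t} := ⟨hj, hxt⟩
      rw [(HL j).eq] at h1
      rcases h1 with h1 | h1
      · obtain ⟨l, hl⟩ := mem_iUnion.1 h1
        exact Or.inr (mem_iUnion.2 ⟨⟨⟨j, hmemS j x hj hxt⟩, l⟩, hl⟩)
      · exact Or.inl (mem_iUnion.2 ⟨j, h1⟩)
    · rintro (h | h)
      · obtain ⟨j, hj⟩ := mem_iUnion.1 h
        have := hlev j x (Or.inr hj)
        exact ⟨mem_iUnion.2 ⟨j, this.1⟩, this.2⟩
      · obtain ⟨⟨⟨j, hj⟩, l⟩, hl⟩ := mem_iUnion.1 h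
        have := hlev j x (Or.inl (mem_iUnion.2 ⟨l, hl⟩))
        exact ⟨mem_iUnion.2 ⟨j, this.1⟩, this.2⟩
  · rintro ⟨⟨j', hj'⟩, l⟩ j
    rw [Set.disjoint_left]
    intro x hx hxα
    simp only at hx
    have h1 := (HL j').inTile l hx
    have h2 : j = j' := open_tile_disjoint K h1 (hsubj j hxα)
    subst h2
    obtain ⟨m, hm⟩ := mem_iUnion.1 hxα
    exact Set.disjoint_left.1 ((HL j).disj l m) hx hm
  · have h1 : (⋃ j, ⋃ m, α j m) = ⋃ j : S, ⋃ m, α j.1 m := by
      apply Subset.antisymm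
      · refine iUnion_subset fun j x hx => ?_
        have h2 := hlev j x (Or.inr hx)
        exact mem_iUnion.2 ⟨⟨j, hmemS j x h2.1 h2.2⟩, hx⟩
      · exact iUnion_subset fun j => subset_iUnion (fun j => ⋃ m, α j m) j.1
    rw [h1]
    exact isCompact_iUnion fun j => isCompact_iUnion fun m => ((HL j.1).arc m).isCompact
  · obtain ⟨b0, hb0⟩ := hP.ne
    have hconn : ∀ b, b ∈ P → ∃ s ⊆ ⋃ j, ⋃ m, α j m, k.invFun (y t b0) ∈ s ∧
        k.invFun (y t b) ∈ s ∧ IsPreconnected s := by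
      intro b hb
      have h1 := hP.conn b0 hb0 b hb
      clear hb
      induction h1 with
      | refl =>
        obtain ⟨j, hj⟩ := K.arc_tile b0
        exact ⟨{k.invFun (y t b0)}, singleton_subset_iff.2 (mem_iUnion.2 ⟨j, hmemP b0 hb0 j hj⟩),
          rfl, rfl, isPreconnected_singleton⟩
      | @tail b b' hbb' hstep ih =>
        obtain ⟨s, hs, hs0, hsb, hsc⟩ := ih
        obtain ⟨hb'P, j, hj, hj'⟩ := hstep
        have hbP : b ∈ P := by
          rcases Relation.ReflTransGen.cases_tail hbb' with h | ⟨c, -, h⟩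
          · rw [h]; exact hb0
          · exact h.1
        by_cases hbe : b = b'
        · subst hbe; exact ⟨s, hs, hs0, hsb, hsc⟩
        · have hpair : ∃ c c', c ≠ c' ∧ {b | inc b j ∧ b ∈ P} = {c, c'} := by
            rcases hP.two j with h | h
            · exfalso
              have : b ∈ {b | inc b j ∧ b ∈ P} := ⟨hj, hbP⟩
              rw [h] at this; exact this
            · exact h
          obtain ⟨c, c', hcc, hset⟩ := hpair
          have hcon : IsPreconnected (⋃ m, α j m) :=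
            (harcj j c c' hset).isPreconnected
          refine ⟨s ∪ ⋃ m, α j m, union_subset hs (subset_iUnion (fun j => ⋃ m, α j m) j),
            Or.inl hs0, Or.inr (hmemP b' hb'P j hj'), ?_⟩
          exact IsPreconnected.union (k.invFun (y t b)) hsb (hmemP b hbP j hj) hsc hcon
    refine isPreconnected_of_forall (k.invFun (y t b0)) ?_
    intro x hx
    obtain ⟨j, hj⟩ := mem_iUnion.1 hx
    rcases hP.two j with h | ⟨b, b', hbb, hset⟩
    · have := hoffj j h
      rw [this] at hj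
      exact absurd hj (notMem_empty x)
    · have hb : inc b j ∧ b ∈ P := by
        have : b ∈ {b | inc b j ∧ b ∈ P} := by rw [hset]; exact Or.inl rfl
        exact this
      obtain ⟨s, hs, hs0, hsb, hsc⟩ := hconn b hb.2
      refine ⟨s ∪ ⋃ m, α j m, union_subset hs (subset_iUnion (fun j => ⋃ m, α j m) j),
        Or.inl hs0, Or.inr hj, ?_⟩
      exact IsPreconnected.union (k.invFun (y t b)) hsb (hmemP b hb.2 j hb.1) hsc
        (harcj j b b' hset).isPreconnected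
  · intro b hb
    obtain ⟨j, hj⟩ := K.arc_tile b
    exact mem_iUnion.2 ⟨j, hmemP b hb j hj⟩

end levels

end P073.GB3
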