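import Vale.Agent.P073.GB3.Spec

/-!
# P073, block GB3: statements of the parts

* `SpecCirc` (Spec.lean): removal of circles in a general cell complex.
* `SpecLayerCx`: the unit faces and cubes of the layer form a `Cx`.
* `SpecLayer`: good levels for the layer, from (TR) and the hypotheses `Input`.
* `SpecArcCell`, `SpecDiscCell`: cell by cell extension.
* `SpecChi`: the homeomorphism of the layer with prescribed traces.
* `SpecDiscs`: the pieces of the clean sphere in the cubes are discs.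
* `SpecNear`: closeness.
-/

open Set Metric Topology Filter

namespace P073.GB3

open Vale.Agent.P073.St (V)

/-- A crossing face (unit square): normal direction `i`, position `n`. -/
structure CFace (N : ℕ) where
  /-- normal direction -/
  i : Fin 3
  /-- position -/
  n : Fin 3 → ℤ
  hi : |n i| ≤ N
  hn : ∀ j, j ≠ i → -(N:ℤ) - 1 ≤ n j ∧ n j ≤ N
  hc : ∃ j, j ≠ i ∧ (n j = N ∨ n j = -(N:ℤ) - 1)

/-- the square -/
def CFace.set {N : ℕ} (F : CFace N) : Set V :=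
  {x | x F.i = F.n F.i ∧ ∀ j, j ≠ F.i → (F.n j : ℝ) ≤ x j ∧ x j ≤ F.n j + 1}

/-- its boundary -/
def CFace.bd {N : ℕ} (F : CFace N) : Set V :=
  {x | x ∈ F.set ∧ ∃ j, j ≠ F.i ∧ (x j = F.n j ∨ x j = F.n j + 1)}

/-- A unit cube of the layer. -/
structure CCube (N : ℕ) where
  /-- position -/
  n : Fin 3 → ℤ
  hn : ∀ j, -(N:ℤ) - 1 ≤ n j ∧ n j ≤ N
  hc : ∃ j, n j = N ∨ n j = -(N:ℤ) - 1

/-- the closed cube -/
def CCube.set {N : ℕ} (c : CCube N) : Set V := {x | ∀ j, (c.n j : ℝ) ≤ x j ∧ x j ≤ c.n j + 1}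

/-- the open layer -/
def layer (N : ℕ) : Set V := {x | (N:ℝ) < ‖x‖ ∧ ‖x‖ < N + 1}

/-- the union of the crossing faces -/
def X2 (N : ℕ) : Set V := ⋃ F : CFace N, F.set

/-- the union of their boundaries -/
def X1 (N : ℕ) : Set V := ⋃ F : CFace N, F.bd

/-- **(C)** -/
def SpecLayerCx : Prop := ∀ N : ℕ, 1 ≤ N → ∀ Ω : Set V, IsOpen Ω → closedBall (0 : V) (N + 1) ⊆ Ω →
  Cx Ω (layer N) (X1 N) (X2 N) (fun F : CFace N => F.set) (fun F => F.bd)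
    (fun c : CCube N => c.set)

/-- the trace of the level surface in the faces: one arc in each crossing face -/
structure Arcs (N : ℕ) (v : V → ℝ) (t : ℝ) (α : CFace N → Set V) : Prop where
  sub : ∀ F, α F ⊆ F.set
  arc : ∀ F, ConBall 1 (α F) {x | x ∈ F.bd ∧ v x = t}
  bd : ∀ F, α F ∩ F.bd = {x | x ∈ F.bd ∧ v x = t}

/-- **(L)** good levels of the layer. -/
def SpecLayer : Prop := SpecTR → ∀ (N : ℕ) (Ω Λ : Set V) (k : ConHomeo Ω Λ) (T : Set ℝ),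
  Input N Ω Λ k T → ∃ T' ⊆ T, ¬ T'.Countable ∧
    ∃ (α : ℝ → CFace N → Set V) (L : ℝ → Type) (κ : ∀ t, L t → Set V),
      ∀ t ∈ T', Arcs N (fun x => w N (k.toFun x)) t (α t) ∧
        GoodLevel Ω (layer N) (X1 N) (X2 N) (fun F : CFace N => F.set) (fun F => F.bd)
          (fun x => w N (k.toFun x)) t (⋃ F, α t F) (κ t)

/-- **(D1)** extension over a disc with an arc -/
def SpecArcCell : Prop := ∀ (τ τ' bd bd' α α' β β' : Set V), ConBall 2 τ bd → ConBall 2 τ' bd' →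
  ConBall 1 α β → ConBall 1 α' β' → α ⊆ τ → α' ⊆ τ' → α ∩ bd = β → α' ∩ bd' = β' →
  ∀ φ : ConHomeo bd bd', φ.toFun '' β = β' →
  ∃ Φ : ConHomeo τ τ', EqOn Φ.toFun φ.toFun bd ∧ Φ.toFun '' α = α'

/-- **(D2)** extension over a cube with a disc (here Alexander's theorem is used) -/
def SpecDiscCell : Prop := SpecAlex → SpecJS → ∀ (c D D' ζ ζ' : Set V),
  (∃ a b : V, (∀ i, a i < b i) ∧ c = Icc a b) → ConBall 2 D ζ → ConBall 2 D' ζ' →
  D ⊆ c → D' ⊆ c → D ∩ frontier c = ζ → D' ∩ frontier c = ζ' →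
  ∀ φ : ConHomeo (frontier c) (frontier c), φ.toFun '' ζ = ζ' →
  ∃ Φ : ConHomeo c c, EqOn Φ.toFun φ.toFun (frontier c) ∧ Φ.toFun '' D = D'

/-- **(D3)** the homeomorphism of the layer with prescribed traces on edges, faces and cubes -/
def SpecChi : Prop := SpecAlex → SpecJS → ∀ (N : ℕ), 1 ≤ N → ∀ t ∈ Ioo (0:ℝ) 1,
  ∀ (t' : CEdge N → ℝ) (α : CFace N → Set V) (D : CCube N → Set V),
  (∀ e, t' e ∈ Ioo (0:ℝ) 1) → (∀ e e', e.pt = e'.pt → t' e = t' e') →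
  (∀ F, α F ⊆ F.set) →
  (∀ F, ConBall 1 (α F) {x | x ∈ F.bd ∧ ∃ e : CEdge N, x = e.pt (t' e)}) →
  (∀ F, α F ∩ F.bd = {x | x ∈ F.bd ∧ ∃ e : CEdge N, x = e.pt (t' e)}) →
  (∀ c, ConBall 2 (D c) (⋃ F : {F : CFace N // F.set ⊆ c.set}, α F)) → (∀ c, D c ⊆ c.set) →
  (∀ c, D c ∩ frontier c.set = ⋃ F : {F : CFace N // F.set ⊆ c.set}, α F) →
  ∃ χ : ConHomeo (univ : Set V) (univ : Set V),
    (∀ x, x ∉ layer N → χ.toFun x = x) ∧
    (∀ e : CEdge N, ∀ u ∈ Icc (0:ℝ) 1, χ.toFun (e.pt u) = e.pt (slide t (t' e) u)) ∧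
    (∀ c : CCube N, χ.toFun '' c.set = c.set) ∧
    ∀ c : CCube N, χ.toFun '' (c.set ∩ {x | w N x = t}) = D c

/-- **(D4)** the pieces of the clean sphere in the cubes are discs. -/
def SpecDiscs : Prop := ∀ (N : ℕ), 1 ≤ N → ∀ (S : Set V) (v : V → ℝ) (t : ℝ) (α : CFace N → Set V),
  ConSphere 2 S → JordanSch 2 S → S ⊆ layer N →
  ContinuousOn v (closedBall 0 (N + 1)) →
  (∀ x ∈ closedBall (0 : V) (N + 1), v x = t ↔ x ∈ S) →
  (∀ x, ‖x‖ = N → v x < t) → (∀ x, ‖x‖ = N + 1 → t < v x) →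
  Arcs N v t α → S ∩ X2 N = ⋃ F, α F →
  (∀ e : CEdge N, ∀ u ∈ Icc (0:ℝ) 1, ∀ u' ∈ Icc (0:ℝ) 1,
    v (e.pt u) = t → v (e.pt u') = t → u = u') →
  (∀ c : CCube N, ConBall 2 (S ∩ c.set) (⋃ F : {F : CFace N // F.set ⊆ c.set}, α F)) ∧
  (∀ c : CCube N, S ∩ frontier c.set = ⋃ F : {F : CFace N // F.set ⊆ c.set}, α F) ∧
  S = ⋃ c : CCube N, S ∩ c.set

/-- **(E)** closeness: a closed subset `D` of `{w N = t}` whose relative boundary is near the cube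
`c`, and which misses a point of `{w N = t}` on the other side, is near `c`. -/
def SpecNear : Prop := ∀ (N : ℕ), 1 ≤ N → ∀ t ∈ Ioo (0:ℝ) 1, ∀ (c : CCube N)
  (i : Fin 3) (s : ℝ), (s = 1 ∨ s = -1) → (∀ x ∈ c.set, (N:ℝ) ≤ s * x i) →
  ∀ (D ζ : Set V), IsClosed D → D ⊆ {x | w N x = t} → IsClosed ({x | w N x = t} \ (D \ ζ)) →
  (∀ x ∈ ζ, ∃ y ∈ c.set, ‖x - y‖ ≤ 1 / 12) →
  ∀ p : V, w N p = t → s * p i < 0 → p ∉ D →
  ∀ x ∈ D, ∀ y ∈ c.set, ‖x - y‖ ≤ 3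

/-- **(F)** a continuous map of the box close to the identity covers a smaller box (Brouwer). -/
def SpecSurj : Prop := ∀ (N : ℕ), 1 ≤ N → ∀ k : V → V, ContinuousOn k (closedBall 0 (N + 1)) →
  (∀ x ∈ closedBall (0 : V) (N + 1), ‖k x - x‖ ≤ 1 / 12) →
  closedBall (0 : V) (N + 7 / 8) ⊆ k '' closedBall (0 : V) (N + 1)

/-- **(S)** the level surfaces are conical spheres (frontiers of convex bodies) with the
Jordan-Schoenflies property. -/
def SpecSph : Prop := SpecJS → ∀ (N : ℕ), 1 ≤ N → ∀ t ∈ Ioo (0:ℝ) 1,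
  ConSphere 2 {x | w N x = t} ∧ JordanSch 2 {x | w N x = t}

end P073.GB3
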