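import Vale.Agent.P073.TR.Square
import Vale.Agent.P073.GB3.Spec

/-!
# P073, block GB3: generic levels in a square
-/

open Set Metric Topology Filter

namespace P073.GB3

open P073 P073.TR

/-- **(TR)** -/
theorem specTR : SpecTR := by
  intro a b hab v hvc hv
  obtain ⟨N, hN, h⟩ := exists_generic_curves a b hab v hvc hv
  refine ⟨N, hN, fun t ht => ?_⟩
  obtain ⟨hcurve, hd⟩ := h t ht
  have hset : {x ∈ Icc a b | v x = t} = {x | x ∈ Icc a b ∧ v x = t} := rfl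
  obtain ⟨J, hJ, C, hU, hdis, hb⟩ := hcurve.exists_components
  have hCM : ∀ j, ∀ x ∈ C j, x ∈ Icc a b ∧ v x = t := by
    intro j x hx
    have : x ∈ {x | x ∈ Icc a b ∧ v x = t} := hU ▸ mem_iUnion.2 ⟨j, hx⟩
    exact this
  set P : J → Prop := fun j => ConSphere 1 (C j) ∧
    ∀ x ∈ C j, (dirs {x | x ∈ Icc a b ∧ v x = t} x).ncard = 2 with hP
  have hM : ∀ m : {j // ¬ P j}, ∃ u w, ConBall 1 (C m.1) {u, w} ∧
      (dirs {x | x ∈ Icc a b ∧ v x = t} u).ncard = 1 ∧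
      (dirs {x | x ∈ Icc a b ∧ v x = t} w).ncard = 1 ∧
      ∀ x ∈ C m.1, (dirs {x | x ∈ Icc a b ∧ v x = t} x).ncard = 1 → x = u ∨ x = w :=
    fun m => (hb m.1).resolve_left m.2
  choose u w hm1 hm2 hm3 hm4 using hM
  have hfr : ∀ x ∈ Icc a b, v x = t → (x ∈ frontier (Icc a b) ↔
      (dirs {x | x ∈ Icc a b ∧ v x = t} x).ncard = 1) := by
    intro x hx hxt
    have h1 := hd x hx hxt
    rw [isClosed_Icc.frontier_eq]
    constructor
    · intro h2; exact h1.2 h2.2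
    · intro h2
      refine ⟨hx, fun h3 => ?_⟩
      have := h1.1 h3
      omega
  refine ⟨{j // P j}, {j // ¬ P j}, fun l => C l.1, fun m => C m.1, fun m => {u m, w m},
    inferInstance, inferInstance, ?_, ?_, ?_, ?_, ?_, ?_⟩
  · rw [hset, ← hU]
    ext x
    simp only [mem_iUnion, mem_union]
    constructor
    · rintro ⟨j, hj⟩
      by_cases hPj : P j
      · exact Or.inl ⟨⟨j, hPj⟩, hj⟩
      · exact Or.inr ⟨⟨j, hPj⟩, hj⟩
    · rintro (⟨l, hl⟩ | ⟨m, hm⟩)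
      · exact ⟨l.1, hl⟩
      · exact ⟨m.1, hm⟩
  · intro l
    refine ⟨l.2.1, fun x hx => ?_⟩
    by_contra hxi
    obtain ⟨h1, h2⟩ := hCM l.1 x hx
    have h3 := (hd x h1 h2).2 hxi
    have h4 := l.2.2 x hx
    omega
  · intro l l' hll
    exact hdis l.1 l'.1 (fun he => hll (Subtype.ext he))
  · intro m
    refine ⟨hm1 m, Subset.antisymm ?_ ?_⟩
    · rintro x ⟨hx, hxf⟩
      obtain ⟨h1, h2⟩ := hCM m.1 x hx
      exact hm4 m x hx ((hfr x h1 h2).1 hxf)
    · rintro x (rfl | hx)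
      · have h0 := arc_left (hm1 m)
        obtain ⟨h1, h2⟩ := hCM m.1 _ h0
        exact ⟨h0, (hfr _ h1 h2).2 (hm2 m)⟩
      · rw [mem_singleton_iff] at hx
        subst hx
        have h0 := arc_right (hm1 m)
        obtain ⟨h1, h2⟩ := hCM m.1 _ h0
        exact ⟨h0, (hfr _ h1 h2).2 (hm3 m)⟩
  · intro m m' hmm
    exact hdis m.1 m'.1 (fun he => hmm (Subtype.ext he))
  · intro l m
    apply hdis l.1 m.1
    intro he
    exact m.2 (he ▸ l.2)

end P073.GB3
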